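import Vale.Agent.P283B.LN.Ext
import Vale.Agent.P283B.LS.Eta
import Vale.Agent.P287D.Ku.Uk

/-!
# P283B, block LN: sections on a cover by two charts, in tensor form
-/

set_option linter.unusedVariables false
set_option linter.unusedSectionVars false

open Set MvPolynomial
open Vale.Agent.P297Z

noncomputable section

namespace Vale.Agent.P283B.Ln

open P287D Wp Cb Ls Ls.Ot Lcb

section aux

variable {K E L F : Type} [Field K] [Field E] [Field L] [Field F] [Algebra ℂ K] [Algebra ℂ E]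
  [Algebra ℂ L] [Algebra ℂ F] {σ τ ι : Type} {n m k : ℕ}

theorem klt3 {Γ H H' H'' : BD K} {C : AddSubmonoid (BD K)} (hK : FF K (n + 1)) (hΓ : Γ ∈ Car K)
    (hH : H ∈ Car K) (hH' : H' ∈ Car K) (hH'' : H'' ∈ Car K)
    (hC : ∀ G ∈ C, 0 ≤ G ∧ ∃ m m' m'' : ℝ, G - (m • H + m' • H' + m'' • H'') ∈ Prn K)
    (k : ∀ P, Zr C P → -1 < dsc (n + 1) Γ P) : ∃ G ∈ C, Klt (n + 1) (Γ - G) := by
  classical
  obtain ⟨s, κ, T, h, l, -, c, d⟩ := exists_ls hK finite_empty (toFinite {Γ, H, H', H''})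
    (forall_mem_insert.2 ⟨hΓ, forall_mem_insert.2 ⟨hH, forall_mem_insert.2 ⟨hH', forall_eq.2 hH''⟩⟩⟩)
  obtain ⟨G, hG, e⟩ := exists_ge (fun G x => (hC G x).1) T.finite_toSet fun P => -dsc (n + 1) Γ P
  obtain ⟨g0, m, m', m'', hm⟩ := hC G hG
  obtain ⟨a, b⟩ := l.hull_sum G
  have u : ∑ P ∈ T, G P • h P ≤ G := sub_nonneg.1 (l.hart _
    ((((((d H (by simp)).1.smul m).add ((d H' (by simp)).1.smul m')).add
      ((d H'' (by simp)).1.smul m'')).congr hm).sub a) fun P hP => by
      rw [Pi.sub_apply, b P hP]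
      split_ifs
      exacts [(sub_self _).ge, sub_nonneg.2 (g0 P)])
  refine ⟨G, hG, fun Q => ?_⟩
  have v := l.gt (Γ := Γ - ∑ P ∈ T, G P • h P) (Q := Q) (by
    rw [← sub_add]
    exact (c.sub (d Γ (.inl rfl))).add ⟨a, fun P p q => (b P p).trans (if_neg q)⟩) le_rfl one_pos
    fun P p _ => by
      rw [dsc_sub, b P (l.on P p), if_pos p]
      by_cases z : Zr C P
      · linarith [k P z, z G hG]
      · linarith [e P p z]
  rw [dsc_sub] at v ⊢
  linarith [u Q]

theorem big3 (α : K →ₐ[ℂ] F) (β : L →ₐ[ℂ] F) (h : Subfield.closure (range α ∪ range β) = ⊤)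
    (hF : FF F k) {X₁ : BD K} {X₂ : BD L} (b₁ : Big X₁) (b₂ : Big X₂) :
    Big (pb (α : K →+* F) X₁ + pb (β : L →+* F) X₂) := by
  classical
  have one : ∀ {K : Type} [Field K] [Algebra ℂ K] (α : K →ₐ[ℂ] F) {X : BD K}
      {Y : BD F}, Big X → Eff Y → ∀ f, α f ∈ fld (pb (α : K →+* F) X + Y) := by
    intro K _ _ α X Y b e f
    obtain ⟨ε, e0, k⟩ := b {1, f}
    have := ((hF.ok α).eff k).add e
    rw [pb_sub, pb_smul, (hF.ok α).pb_mx, Pb.im_eq, Finset.image_insert, Finset.image_singleton,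
      map_one, mx_pld, sub_add_eq_add_sub] at this
    exact InF.mem ⟨ε, e0, this⟩
  have e₁ := (hF.ok α).eff b₁.eff
  have e₂ := (hF.ok β).eff b₂.eff
  exact (big_iff_fld (e₁.add e₂)).2 (eq_top_iff.2 fun x _ =>
    (Subfield.closure_le (t := (fld _).toSubfield)).2 (union_subset (range_subset_iff.2 (one α b₁ e₂))
      (range_subset_iff.2 (add_comm (pb (β : L →+* F) X₂) _ ▸ one β b₂ e₁)))
      (h ▸ Subfield.mem_top x))

theorem hom_of [Algebra K E] [Algebra K F] {y : ι → E} (hy : AlgebraicIndependent K y)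
    (ht : IntermediateField.adjoin K (range y) = ⊤) {x : ι → F} (hx : AlgebraicIndependent K x) :
    ∃ τ : E →ₐ[K] F, ∀ i, τ (y i) = x i := by
  let e := hy.aevalEquivField.trans
    ((IntermediateField.equivOfEq ht).trans IntermediateField.topEquiv)
  refine ⟨(IntermediateField.val _).comp (hx.aevalEquivField.toAlgHom.comp e.symm.toAlgHom),
    fun l => ?_⟩
  have a : e (algebraMap _ _ (MvPolynomial.X l : MvPolynomial ι K)) = y l :=
    (hy.aevalEquivField_algebraMap_apply_coe _).trans (MvPolynomial.aeval_X _ _)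
  change (hx.aevalEquivField (e.symm (y l)) : F) = _
  rw [← a, AlgEquiv.symm_apply_apply]
  exact (hx.aevalEquivField_algebraMap_apply_coe _).trans (MvPolynomial.aeval_X _ _)

/-- localisation near the point and over `v` -/
theorem loc [Algebra K E] [IsScalarTower ℂ K E] (hE : FF E (m + 1)) (hL : FF L k)
    (φ : L →ₐ[ℂ] E) {H : BD K} {C : AddSubmonoid (BD K)} (hH : H ∈ Car K)
    (hC : ∀ G ∈ C, 0 ≤ G ∧ ∃ m : ℝ, 0 ≤ m ∧ G - m • H ∈ Prn K) (v : Pl L) {Γ Z : BD E}
    (cΓ : Γ ∈ Car E) (cZ : Z ∈ Car E) (z0 : 0 ≤ Z)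
    (h : ∀ P, Nr C P → Trv (φ : L →+* E) P ∨ Lies (φ : L →+* E) P v → Z P = 0 →
      -1 < dsc (m + 1) Γ P) : ∃ G₁ ∈ C, ∃ G : BD L, Nef G ∧ Big G ∧ G v = 0 ∧ ∀ P, Z P = 0 →
      -1 < dsc (m + 1) Γ P + pb (algebraMap K E) G₁ P + pb (φ : L →+* E) G P := by
  obtain _ | k := k
  · exact (no_pl hL v).elim
  obtain ⟨s, κ, T, _, l, hT, -⟩ := exists_ls hL (finite_singleton v) finite_empty (by simp)
  have ok := hE.ok φ
  have oK := okL (L := K) hE
  obtain ⟨_, hG, kl⟩ := klt3 (C := C.map (pbL (algebraMap K E)).toAddMonoidHom ⊔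
    (Wt (mx s) v).map (pbL (φ : L →+* E)).toAddMonoidHom ⊔ AddSubmonoid.multiples Z) hE cΓ
    (oK.car hH) (ok.car (mx_mem_Car s)) cZ (fun G hG => by
      obtain ⟨_, p, _, ⟨j, rfl⟩, rfl⟩ := AddSubmonoid.mem_sup.1 hG
      obtain ⟨_, ⟨a, ha, rfl⟩, _, ⟨b, hb, rfl⟩, rfl⟩ := AddSubmonoid.mem_sup.1 p
      obtain ⟨a0, m, -, e⟩ := hC a ha
      obtain ⟨m', e'⟩ := wt_prn hb
      refine ⟨add_nonneg (add_nonneg (pb_nonneg _ a0) (pb_nonneg _ (wt_nn hb))) (nsmul_nonneg z0 j),
        m, m', j, ?_⟩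
      have e1 := oK.prn e
      have e2 := ok.prn e'
      rw [pb_sub, pb_smul] at e1 e2
      change pb _ a + pb _ b + j • Z - _ ∈ _
      rw [Nat.cast_smul_eq_nsmul ℝ j, add_sub_add_right_eq_sub, add_sub_add_comm]
      exact add_mem e1 e2)
    fun w hw => h w (fun G hG => hw _ (AddSubmonoid.mem_sup_left
      (AddSubmonoid.mem_sup_left ⟨G, hG, rfl⟩))) ((ok w).imp_right fun ⟨u, p⟩ => by
        obtain rfl := Api.sep _ L hL _ v u l.smp l.big (l.on v (hT v rfl)) ((ov_iff hL).2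
          fun G hG => by
            have := hw _ (AddSubmonoid.mem_sup_left (AddSubmonoid.mem_sup_right ⟨G, hG, rfl⟩))
            exact (mul_eq_zero.1 ((p.pb G).symm.trans this)).resolve_left
              (Int.cast_ne_zero.2 p.e_pos.ne'))
        exact p) (hw _ (AddSubmonoid.mem_sup_right (AddSubmonoid.mem_multiples _)))
  obtain ⟨_, p, _, ⟨j, rfl⟩, rfl⟩ := AddSubmonoid.mem_sup.1 hG
  obtain ⟨_, ⟨a, ha, rfl⟩, _, ⟨b, hb, rfl⟩, rfl⟩ := AddSubmonoid.mem_sup.1 p
  obtain ⟨G, h₃, le, m, m1, pr⟩ := wt_large hb 1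
  refine ⟨a, ha, G, ((nef_mx s).smul (zero_le_one.trans m1)).congr pr,
    (l.big.smul (one_pos.trans_le m1)).congr pr, h₃.1, fun P z => ?_⟩
  have a1 := kl P
  have a2 := pb_mono (φ : L →+* E) le P
  change -1 < dsc _ (_ - (pb _ a + pb _ b + j • Z)) P at a1
  rw [dsc_sub, Pi.add_apply, Pi.add_apply, Pi.smul_apply, z, smul_zero] at a1
  linarith

variable [Fintype σ] [Fintype τ] [Fintype ι] [Algebra E F] [Algebra L F] [IsScalarTower ℂ E F]
  [IsScalarTower ℂ L F]

theorem ext0 (hE : FF E (n + 1)) {z : σ ⊕ τ → L} (hz : Rf z) (φ : L →ₐ[ℂ] E)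
    (hφ : ∀ b, algebraMap L F (z (.inl b)) = algebraMap E F (φ (z (.inl b))))
    (hy : AlgebraicIndependent E fun b => algebraMap L F (z (.inr b)))
    (hg : IntermediateField.adjoin E (range fun b => algebraMap L F (z (.inr b))) = ⊤)
    (cx : Fintype.card ι = n + 1) {x : ι → E} (hx : AlgebraicIndependent ℂ x) {A : BD E} {G : BD L}
    {u : E} (a1 : Nef (-A)) (g1 : Nef G)
    (a2 : Big (pb (algebraMap E F) (-A) + pb (algebraMap L F) G))
    (k : ∀ w, 0 < (kq x + 1 - A + pb (φ : L →+* E) G + dv u) w) : ∃ g : F,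
      (∀ (α : Type) [Fintype α] (c : α → E) (e : α → L),
        g = ∑ i, algebraMap E F (c i) * algebraMap L F (e i) → u = ∑ i, c i * φ (e i)) ∧
      ∀ (R : Pl F) (m : ℝ), (∀ b, -m ≤ R.ord (algebraMap L F (z (.inr b)) -
        algebraMap E F (φ (z (.inr b))))) →
        (g ∈ R.ring ∧ Trv (algebraMap E F) R ∧ Trv (algebraMap L F) R) ∨ g = 0 ∨
        -1 < kq (Sum.elim (algebraMap E F ∘ x) fun b => algebraMap L F (z (.inr b))) R -
          pb (algebraMap E F) A R + pb (algebraMap L F) G R + Fintype.card τ * m + R.ord g := by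
  classical
  have hF := ff_gen hE hy hg
  rcases isEmpty_or_nonempty τ with _ | ⟨⟨b₀⟩⟩
  · let a := IsScalarTower.toAlgHom ℂ E F
    have e : algebraMap L F = (algebraMap E F).comp (φ : L →+* E) := RingHom.ext fun f => by
      obtain ⟨p, q, rfl⟩ := (IntermediateField.mem_adjoin_range_iff ℂ z f).1 (hz.gen ▸ trivial)
      have : ∀ p : MvPolynomial (σ ⊕ τ) ℂ, IsScalarTower.toAlgHom ℂ L F (aeval z p) =
          (a.comp φ) (aeval z p) := fun p => by
        rw [comp_aeval_apply, comp_aeval_apply]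
        congr 2
        funext b
        rcases b with b | b
        exacts [hφ b, isEmptyElim b]
      rw [map_div₀, map_div₀]
      exact congrArg₂ (· / ·) (this p) (this q)
    refine ⟨algebraMap E F u, fun α _ c d h => (algebraMap E F).injective (by
      simpa [e] using h), fun R m _ => .inr (.inr ?_)⟩
    rw [Fintype.card_eq_zero, add_zero] at hF
    obtain ⟨w, l⟩ := (okL (L := E) hF R).resolve_left fun t => Pl.ring_ne_top R.toPlace
      (eq_top_iff.2 fun f _ => by
        rw [range_eq_empty, IntermediateField.adjoin_empty] at hg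
        obtain ⟨f, rfl⟩ := IntermediateField.mem_bot.1 (hg ▸ IntermediateField.mem_top (x := f))
        exact t f)
    have h1 := Ea.kq_hur (φ := a) (cx ▸ hE) (cx ▸ hF) hx l
    have h2 := mul_pos (Int.cast_pos.2 l.e_pos : (0 : ℝ) < _) (k w)
    rw [← kq_congr hF (by simp [cx]) (Equiv.sumEmpty ι τ) (y' := fun i => a (x i))
      (by rintro (i | i); exacts [rfl, isEmptyElim i]), e, (okL hF).pb_comp, l.pb, l.pb, l.ord u,
      Fintype.card_eq_zero]
    simp only [Pi.add_apply, Pi.sub_apply, Pi.one_apply, dv_apply] at h2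
    change _ = (R.ord (algebraMap E F w.t) : ℝ) * _ at h1
    push_cast
    linarith
  let q : Option {b // b ≠ b₀} ≃ τ := Equiv.optionSubtypeNe b₀
  let q' := (Equiv.refl σ).sumCongr q
  have cq := Fintype.card_congr q
  obtain ⟨g, a, b⟩ := ext (F := F) hE (z := z ∘ q') ⟨hz.ind.comp _ q'.injective, by
    rw [q'.surjective.range_comp, hz.gen]⟩ φ hφ (hy.comp _ q.injective)
    (by rw [← hg, ← q.surjective.range_comp]; rfl) cx hx a1 g1 a2 k
  refine ⟨g, a, fun R m h => ?_⟩
  rw [kq_congr hF (by rw [Fintype.card_sum, cx, cq]) ((Equiv.refl ι).sumCongr q)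
    (y := Sum.elim (algebraMap E F ∘ x) fun b => algebraMap L F ((z ∘ q') (.inr b)))
    (by rintro (_ | _) <;> rfl), ← cq, Fintype.card_option, Nat.cast_add, Nat.cast_one]
  exact b R m fun b => h _

end aux

theorem gnad : GNAD := by
  intro n K _ _ hK E L σ τ _ _ _ _ _ _ _ _ z φ c x A H p D₁ C D D₂ v π q N ζ f su hx hH hC
    ⟨G₀, g0, g1, g2⟩ hD hb hp q0 hq N0 π0 π1 ζ0 h1 h2
  classical
  have hz := su.rf
  have hL := rf_ff hz
  have hE : FF E (n + Fintype.card σ + 1) := Nat.add_right_comm _ _ _ ▸ ff_gen hK su.ind su.gen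
  let xE : Fin (n + 1) ⊕ σ → E := Sum.elim (algebraMap K E ∘ x) fun b => φ (z (.inl b))
  have cx : Fintype.card (Fin (n + 1) ⊕ σ) = n + Fintype.card σ + 1 := by simp; omega
  have iE : AlgebraicIndependent ℂ xE := ind_sum su.ind hx
  obtain ⟨j, -, ej⟩ := kq_cn hE cx iE
  have ok := hE.ok φ
  have oK := okL (L := K) hE
  have nf : ∀ G ∈ C, Nef G := fun G hG => let ⟨_, m, m0, e⟩ := hC G hG; (hH.smul m0).congr e
  have cA : A ∈ Car K := by simpa using sub_mem (nf _ g0).car g1.car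
  let a := la x z φ A D
  let Γ := pb (algebraMap K E) A - D - dv j
  have cΓ : Γ ∈ Car E := sub_mem (sub_mem (oK.car cA) hD.car) (dv_mem_Car j)
  have eΓ : ∀ P, dsc (n + Fintype.card σ + 1) Γ P = a P - 1 := fun P => by
    have := congrFun ej P
    simp only [a, la, Γ, dsc, Pi.sub_apply, Pi.add_apply, Pi.one_apply] at this ⊢
    linarith
  have aj : ∀ {P g}, Aj (n + Fintype.card σ + 1) Γ P g ↔ Ad a P g := fun {P g} =>
    or_congr_right (by rw [eΓ]; constructor <;> intro <;> linarith)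
  have z0 : ∀ {P : Pl E} {G : BD L}, G v = 0 → Trv (φ : L →+* E) P ∨ Lies (φ : L →+* E) P v →
      pb (φ : L →+* E) G P = 0 := fun e h => h.elim (fun t => t.pb _) fun l => by
    rw [l.pb, e, mul_zero]
  have pz : ∀ {P : Pl E} {g : E}, pld g P = 0 ↔ 0 ≤ P.ord g := fun {P g} => by
    rw [pld_apply, max_eq_left_iff, neg_nonpos, Int.cast_nonneg_iff]
  have gK : ∀ G ∈ C, ∀ P : Pl E, 0 ≤ pb (algebraMap K E) G P := fun G h => pb_nonneg _ (hC G h).1
  -- the section on the cover
  obtain ⟨u, hu⟩ : ∃ u, ∀ P, Nr C P → Trv (φ : L →+* E) P ∨ Lies (φ : L →+* E) P v →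
      (0 ≤ P.ord ζ → Ad a P u) ∧ (P.ord ζ ≤ 0 → Ad a P (u - f)) := by
    by_cases f0 : f = 0
    · exact ⟨0, fun _ _ _ => ⟨fun _ => .inl rfl, fun _ => .inl (by simp [f0])⟩⟩
    have zz : ∀ P, (pld ζ + pld ζ⁻¹) P = 0 ↔ P.ord ζ = 0 := fun P => by
      rw [Pi.add_apply, add_eq_zero_iff_of_nonneg (pld_nonneg _ P) (pld_nonneg _ P), pz, pz,
        Pl.ord_inv]
      omega
    obtain ⟨G₁, m₁, G, n₁, b₁, v₁, k⟩ := loc hE hL φ hH.car hC v
      (sub_mem cΓ (dv_mem_Car f)) (add_mem (pld_car ζ) (pld_car ζ⁻¹))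
      (add_nonneg (pld_nonneg _) (pld_nonneg _)) fun P r t e => by
        rw [dsc_sub, dv_apply]
        refine (aj.2 ?_).resolve_left f0
        rcases t with t | t
        · have := h1 P r t
          have o := Int.cast_nonneg (R := ℝ)
            (Pl.ord_nonneg_of_mem P.toPlace (this.2 ((zz P).1 e).le))
          exact .inr (add_pos_of_pos_of_nonneg this.1 o)
        · exact (h2 P r t).1 ((zz P).1 e)
    let Γ' := Γ - (pb (algebraMap K E) (G₀ + G₁) + pb (φ : L →+* E) G)
    have pr : -Γ' - (pb (algebraMap K E) (G₀ - A) + pb (φ : L →+* E) G +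
        (D + pb (algebraMap K E) G₁)) ∈ Prn E := by
      rw [show -Γ' - _ = dv j by simp only [Γ', Γ, pb_add, pb_sub]; abel]
      exact dv_mem_Prn j
    have nn := hD.add (oK.nef (nf _ m₁))
    have ov : ∀ P, P.ord ζ = 0 → Aj (n + Fintype.card σ + 1) Γ' P f := fun P e => .inr (by
      have := k P ((zz P).2 e)
      have := gK _ g0 P
      rw [dsc_sub, dv_apply] at *
      rw [pb_add, Pi.add_apply, Pi.add_apply]
      linarith)
    obtain ⟨u, hu⟩ := Ku.ukv _ E hE Γ' Bool (fun b => cond b (pld ζ) (pld ζ⁻¹))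
      (fun b => cond b 0 f) ((((oK.nef g1).add (ok.nef n₁)).add nn).congr pr)
      (((big3 (IsScalarTower.toAlgHom ℂ K E) φ (eq_top_iff.2 fun y _ =>
        (Subfield.closure_mono (union_subset_union_right _ (range_subset_iff.2 fun b =>
          mem_range_self (f := φ) (z (.inl b))))) (show y ∈ (IntermediateField.adjoin K (range fun b =>
            φ (z (.inl b)))).toSubfield from su.gen ▸ trivial)) hE g2 b₁).add_nef nn).congr pr)
      (by rintro (_ | _) <;> exact ⟨pld_car _, pld_nonneg _⟩)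
      (fun P => (le_total 0 (P.ord ζ)).elim (fun e => ⟨true, pz.2 e⟩) fun e =>
        ⟨false, pz.2 (by rw [Pl.ord_inv]; omega)⟩) (by
      rintro (_ | _) (_ | _) P e e'
      · exact .inl (sub_self _)
      · exact (congrArg _ (sub_zero f)).mpr
          (ov P ((zz P).1 ((congrArg₂ (· + ·) e' e).trans (add_zero 0))))
      · exact (congrArg _ (zero_sub f)).mpr
          (ov P ((zz P).1 ((congrArg₂ (· + ·) e e').trans (add_zero 0)))).neg
      · exact .inl (sub_self _))
    refine ⟨u, fun P r t => ?_⟩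
    have le : Γ P ≤ Γ' P := by
      simp only [Γ', pb_add, Pi.add_apply, Pi.sub_apply (f := Γ), r _ g0, r _ m₁, z0 v₁ t]
      simp
    exact ⟨fun e => aj.1 (sub_zero u ▸ (hu true P (pz.2 e)).mono le),
      fun e => aj.1 ((hu false P (pz.2 (by rw [Pl.ord_inv]; omega))).mono le)⟩
  suffices ∃ (r : ℕ) (g : Fin r → K) (e : Fin r → L),
      (∀ l w, (∀ G ∈ C, G w = 0) → Ad (kq x + 1 - A + D₁ + (Fintype.card τ : ℝ) • p) w (g l)) ∧
      (∀ l, e l = 0 ∨ 0 < kq z v + 1 + pb ((L0 z).val : _ →+* L) D₂ v + N * v.ord (π : L) +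
        Fintype.card τ * q + v.ord (e l)) ∧ u = ∑ l, algebraMap K E (g l) * φ (e l) by
    obtain ⟨r, g, e, a1, a2, a3⟩ := this
    exact ⟨r, g, e, a1, a2, fun P r t => a3 ▸ hu P r (.inr t)⟩
  by_cases u0 : u = 0
  · exact ⟨0, Fin.elim0, Fin.elim0, fun l => l.elim0, fun l => l.elim0, by simp [u0]⟩
  -- the section is adjoint for a larger pair
  let D' := D + N • dv (φ π)
  obtain ⟨G₁, m₁, G, n₁, b₁, v₁, k⟩ := loc hE hL φ hH.car hC v
    (sub_mem (sub_mem cΓ ((Car E).smul_mem N (dv_mem_Car (φ π)))) (dv_mem_Car u)) (zero_mem _)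
    le_rfl fun P r t _ => by
      have o : 0 ≤ (N • dv (φ π)) P := mul_nonneg N0 (Int.cast_nonneg (t.elim
        (fun t => (t.ord _).ge) fun l => (l.ord _).symm ▸ mul_nonneg l.e_pos.le π1))
      have le : (Γ - N • dv (φ π)) P ≤ Γ P := sub_le_self _ o
      rw [dsc_sub]
      refine Or.resolve_left (b := _ < _ + (P.ord u : ℝ)) ?_ u0
      rcases le_total 0 (P.ord ζ) with e | e
      · exact (aj.2 ((hu P r t).1 e)).mono le
      have : Aj (n + Fintype.card σ + 1) (Γ - N • dv (φ π)) P f := by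
        rcases t with t | t
        · have := h1 P r t
          exact Aj.mono (.of_klt (by rw [eΓ]; linarith [this.1])
            (Pl.ord_nonneg_of_mem P.toPlace (this.2 e))) le
        · refine ((h2 P r t).2 e).imp_right fun y => ?_
          rw [dsc_sub, eΓ]
          rw [Pi.add_apply] at y
          linarith
      have := ((aj.2 ((hu P r t).2 e)).mono le).add this
      rwa [sub_add_cancel] at this
  -- the product
  obtain ⟨F, _, _, _, _, _, _, h⟩ := amal ℂ K L
  have iz : AlgebraicIndependent K (algebraMap L F ∘ z) := (swap h).algInd hz.ind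
  have gz := gen_of h hz (w := algebraMap L F ∘ z) fun b =>
    IntermediateField.subset_adjoin _ _ ⟨b, rfl⟩
  have hF := ff_gen hK iz gz
  obtain ⟨ι, hι⟩ := hom_of su.ind su.gen (iz.comp _ Sum.inl_injective)
  let _ := ι.toRingHom.toAlgebra
  have eK : algebraMap K F = (algebraMap E F).comp (algebraMap K E) :=
    RingHom.ext fun a => (ι.commutes a).symm
  have : IsScalarTower ℂ E F := .of_algebraMap_eq fun a => by
    rw [← lin K E, ← lin K F]; exact (ι.commutes _).symm
  have : IsScalarTower K E F := .of_algebraMap_eq' eK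
  have oE := okL (L := E) hF
  have oL := okL (L := L) hF
  have hg : IntermediateField.adjoin E (range fun b => algebraMap L F (z (.inr b))) = ⊤ := by
    refine eq_top_iff.2 fun y _ => (IntermediateField.adjoin_le_iff (T := (IntermediateField.adjoin
      E (range fun b => algebraMap L F (z (.inr b)))).restrictScalars K)).2
      (range_subset_iff.2 ?_) (gz ▸ IntermediateField.mem_top (x := y))
    rintro (b | b)
    · exact (hι b).subst (motive := (· ∈ IntermediateField.adjoin E _))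
        (IntermediateField.algebraMap_mem _ (φ (z (.inl b))))
    · exact IntermediateField.subset_adjoin E _ ⟨b, rfl⟩
  have hy : AlgebraicIndependent E fun b => algebraMap L F (z (.inr b)) :=
    Gm.Ga.ind_alg.2 (Gm.ind_of_trdeg (lin E F) hE (congrArg IntermediateField.toSubfield hg)
      (by rw [hF.trdeg, Fintype.card_sum]; exact Nat.cast_le.2 (by omega)))
  have e0 : (algebraMap L F).comp ((L0 z).val : L0 z →+* L) =
      (algebraMap E F).comp ((φ.comp (L0 z).val : L0 z →ₐ[ℂ] E) : L0 z →+* E) :=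
    RingHom.ext (AlgHom.congr_fun (IntermediateField.adjoin_algHom_ext ℂ
      (φ₁ := (IsScalarTower.toAlgHom ℂ L F).comp (L0 z).val)
      (φ₂ := (IsScalarTower.toAlgHom ℂ E F).comp (φ.comp (L0 z).val)) (by
        rintro _ ⟨b, rfl⟩; exact (hι b).symm)))
  have eπ : algebraMap E F (φ π) = algebraMap L F π := (RingHom.congr_fun e0 π).symm
  have nD : Nef D' := hD.congr (by
    rw [add_sub_cancel_left]; exact Submodule.smul_mem _ _ (dv_mem_Prn _))
  have nn := nD.add (oK.nef (nf _ m₁))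
  let A' := pb (algebraMap K E) A - D' - pb (algebraMap K E) (G₀ + G₁)
  have eA : -A' = pb (algebraMap K E) (G₀ - A) + (D' + pb (algebraMap K E) G₁) := by
    simp only [A', pb_add, pb_sub]; abel
  obtain ⟨g, e, b⟩ := ext0 (F := F) hE hz φ (fun b => (hι b).symm) hy hg cx iE (A := A') (G := G)
    (u := u) (eA ▸ (oK.nef g1).add nn) n₁ (by
      rw [eA, pb_add, ← oE.pb_comp, ← eK, add_right_comm]
      exact (big2 h hF g2 b₁).add_nef (oE.nef nn)) fun w => by
      have := k w rfl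
      have := gK _ g0 w
      rw [dsc_sub, dsc_sub, eΓ] at *
      simp only [a, la, A', D', pb_add, Pi.sub_apply, Pi.add_apply, Pi.one_apply] at *
      linarith
  rw [← kq_congr hF (by simp [add_assoc]) (Equiv.sumAssoc _ _ _)
    (y' := Sum.elim (algebraMap K F ∘ x) (algebraMap L F ∘ z)) (by
      rintro ((i | i) | i)
      exacts [(ι.commutes _).symm, (hι i).symm, rfl])] at b
  have key : ∀ (R : Pl F) (m : ℝ), 0 ≤ m → (∀ b, -m ≤ R.ord (algebraMap L F (z (.inr b))) ∧
      -m ≤ R.ord (algebraMap K F (c b))) → (∀ G ∈ C, pb (algebraMap K F) G R = 0) →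
      (g ∈ R.ring ∧ Trv (algebraMap K F) R ∧ Trv (algebraMap L F) R) ∨ g = 0 ∨
      -1 < kq (Sum.elim (algebraMap K F ∘ x) (algebraMap L F ∘ z)) R -
        pb (algebraMap K F) (A - D₁) R + pb (algebraMap L F)
          (pb ((L0 z).val : _ →+* L) D₂ + N • dv (π : L) + G) R + Fintype.card τ * m +
          R.ord g := fun R m m0 r1 r2 => by
    refine (b R m fun b => ?_).imp (fun y => ⟨y.1, eK ▸ y.2.1.comp _, y.2.2⟩)
      (Or.imp_right fun y => ?_)
    · have y0 : algebraMap L F (z (.inr b)) - algebraMap E F (φ (z (.inr b))) ≠ 0 := fun e =>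
        hy.transcendental b (sub_eq_zero.1 e ▸ isAlgebraic_algebraMap _)
      rw [su.cut, ← IsScalarTower.algebraMap_apply, sub_eq_add_neg] at y0 ⊢
      by_cases c0 : algebraMap K F (c b) = 0
      · simpa [c0] using (r1 b).1
      have := Int.cast_le (R := ℝ).2 (Pl.min_ord_le_add R.toPlace (hy.ne_zero b)
        (neg_ne_zero.2 c0) y0)
      rw [Pl.ord_neg, Int.cast_min] at this
      exact (le_min (r1 b).1 (r1 b).2).trans this
    · have le : pb (algebraMap E F) D R ≤ pb (algebraMap E F) (pb (algebraMap K E) D₁ +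
          pb ((φ.comp (L0 z).val : _ →ₐ[ℂ] E) : _ →+* E) D₂) R := by
        rcases oE R with t | ⟨P, l⟩
        · rw [t.pb, t.pb]
        rw [l.pb, l.pb]
        refine mul_le_mul_of_nonneg_left (hb P fun G hG => ?_) (Int.cast_nonneg l.e_pos.le)
        have := r2 G hG
        rw [eK, oE.pb_comp, l.pb] at this
        exact (mul_eq_zero.1 this).resolve_left (Int.cast_ne_zero.2 l.e_pos.ne')
      rw [pb_add, ← oE.pb_comp, ← oE.pb_comp, ← eK, ← e0, oL.pb_comp] at le
      simp only [A', D', pb_add, pb_sub, pb_smul, oE.pb_dv, oL.pb_dv, ← oE.pb_comp, ← eK, eπ,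
        Pi.add_apply, Pi.sub_apply, r2 _ g0, r2 _ m₁] at y le ⊢
      linarith
  obtain ⟨α, _, c₀, e₀, rfl⟩ := den h hK hz hx (g := g) fun R t t' r => by
    rcases key R 0 le_rfl (fun _ => by simp [t.ord, t'.ord]) fun _ _ => t.pb _ with u | rfl | u
    · exact u.1
    · exact zero_mem _
    · rw [r, t.pb, t'.pb, sub_self, add_zero, mul_zero, add_zero, zero_add] at u
      exact mem_ord (by have : (-1 : ℤ) < R.ord g := by exact_mod_cast u
                        omega)
  obtain ⟨r₁, a₁, c₁, i₁, q₁⟩ := red (F := F) c₀ e₀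
  obtain ⟨r, a₂, e₂, i₂, q₂⟩ := red (F := F) (e₀ ∘ a₁) c₁
  simp only [mul_comm (algebraMap L F _)] at q₂
  refine ⟨r, c₁ ∘ a₂, e₂, fun i w hw => or_iff_not_imp_left.2 fun c0 => ?_,
    fun i => or_iff_not_imp_left.2 fun c0 => ?_, e _ _ _ ((q₁.trans q₂).trans
      (Finset.sum_congr rfl fun i _ => by rw [eK]; rfl))⟩
  · obtain ⟨R, l, t, u, o⟩ := tens (swap h) hK hL hF (by simp) rfl hx hz.ind w
    obtain ⟨o1, o2⟩ := o _ (e₀ ∘ a₁) c₁ i₁ _ c0
    have ep : (0 : ℝ) < R.ord (algebraMap K F w.t) := Int.cast_pos.2 l.e_pos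
    rw [q₁] at key
    have := ((key R (R.ord (algebraMap K F w.t) * p w) (mul_nonneg ep.le (hp w).1) (fun b => ⟨by
      rw [t.ord, Int.cast_zero, neg_nonpos]; exact mul_nonneg ep.le (hp w).1, by
      rw [l.ord (c b), Int.cast_mul, ← mul_neg]
      exact mul_le_mul_of_nonneg_left (neg_le.1 ((hp w).2 b)) ep.le⟩) fun G hG => by
        rw [l.pb, hw G hG, mul_zero]).resolve_left fun j => l.not_trv j.2.1).resolve_left o1
    have o3 := Int.cast_le (R := ℝ).2 o2
    rw [l.ord (c₁ _), Int.cast_mul] at o3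
    rw [l.pb] at u
    rw [l.pb, t.pb] at this
    simp only [Pi.add_apply, Pi.sub_apply, Pi.one_apply, Pi.smul_apply, smul_eq_mul,
      Function.comp_apply] at u this o3 ⊢
    refine pos_of_mul_pos_left (b := _) ?_ ep.le
    linarith
  · obtain ⟨R, l, t, u, o⟩ := tens h hL hK (add_comm (n + 1) _ ▸ hF) rfl (by simp) hz.ind hx v
    obtain ⟨o1, o2⟩ := o _ (c₁ ∘ a₂) e₂ i₂ _ c0
    simp only [mul_comm (algebraMap L F _)] at o1 o2
    have ep : (0 : ℝ) < R.ord (algebraMap L F v.t) := Int.cast_pos.2 l.e_pos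
    rw [q₁.trans q₂] at key
    have := ((key R (R.ord (algebraMap L F v.t) * q) (mul_nonneg ep.le q0) (fun b => ⟨by
      rw [l.ord (z _), Int.cast_mul, ← mul_neg]
      exact mul_le_mul_of_nonneg_left (neg_le.1 (hq b)) ep.le, by
      rw [t.ord, Int.cast_zero, neg_nonpos]; exact mul_nonneg ep.le q0⟩)
        fun G hG => t.pb _).resolve_left fun j => l.not_trv j.2.2).resolve_left o1
    have o3 := Int.cast_le (R := ℝ).2 o2
    rw [l.ord (e₂ _), Int.cast_mul] at o3
    rw [l.pb, kq_congr hF (by simp [add_comm]) (Equiv.sumComm _ _)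
      (y := Sum.elim (algebraMap K F ∘ x) (algebraMap L F ∘ z)) (by rintro (_ | _) <;> rfl)] at u
    rw [l.pb, t.pb] at this
    simp only [Pi.add_apply, Pi.one_apply, Pi.smul_apply, smul_eq_mul, dv_apply, v₁,
      Function.comp_apply] at u this o3 ⊢
    refine pos_of_mul_pos_left (b := _) ?_ ep.le
    linarith

end Vale.Agent.P283B.Ln
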