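import Vale.Agent.P283B.LS.Bri
import Vale.Agent.P283B.LN.Nad

/-!
# P283B, block LN: fresh generic units and the places above a point
-/

set_option linter.unusedVariables false
set_option linter.unusedSectionVars false

open Set Function
open Vale.Agent.P297Z

noncomputable section

namespace Vale.Agent.P283B.Ln.Nv

open P287D P287D.Cb Wp Ls Mono Mb Bi

theorem fr_cl (O O' : Type) [Field O] [IsAlgClosed O] [Field O'] [Algebra O O'] :
    Mono.Cl (algebraMap O O').fieldRange := fun x hx => by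
  have h : IsAlgebraic O x := hx.of_ringHom_of_comp_eq (algebraMap O O').rangeRestrictField
    (RingHom.id O') (algebraMap O O').rangeRestrictField_bijective.2 injective_id rfl
  exact minpoly.mem_range_of_degree_eq_one O x
    (IsAlgClosed.degree_eq_one_of_irreducible O (minpoly.irreducible h.isIntegral))

/-- fresh generic units -/
theorem uni (O : Type) [Field O] [IsAlgClosed O] (w : AbsoluteValue O ℝ) (e : ℕ)
    (hw : IsNonarchimedean w) (hn : w.IsNontrivial) : ∃ (O' : Type) (_ : Field O')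
      (_ : Algebra O O') (_ : IsAlgClosed O') (w' : AbsoluteValue O' ℝ) (U : Fin e → O'),
      IsNonarchimedean w' ∧ (∀ a, w' (algebraMap O O' a) = w a) ∧
      Tw w' (algebraMap O O').fieldRange U ∧
      ∀ z, z ∈ acl (algebraMap O O').fieldRange (range U) := by
  induction e generalizing O with
  | zero =>
    exact ⟨O, _, Algebra.id O, inferInstance, w, Fin.elim0, hw, fun _ => rfl, fun j => j.elim0,
      fun z => le_acl _ _ ⟨z, rfl⟩⟩
  | succ e ih =>
    let B := FractionRing (MvPolynomial Unit O)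
    let O₁ := AlgebraicClosure B
    have nt : ∀ {M : Type} [Field M] [Algebra O M] {v : AbsoluteValue M ℝ},
        (∀ a, v (algebraMap O M a) = w a) → v.IsNontrivial := fun h =>
      let ⟨x, x0, x1⟩ := hn; ⟨algebraMap O _ x, (map_ne_zero _).2 x0, by rwa [h]⟩
    obtain ⟨w₀, ⟨a1, a2⟩, a3⟩ := P285N.Brep.gau O Unit w hw
    obtain ⟨w₁, b1, b2⟩ := P285N.Brep.ext B O₁ w₀ a1 (nt a2)
    have b3 : ∀ a, w₁ (algebraMap O O₁ a) = w a := fun a => by
      rw [IsScalarTower.algebraMap_apply O B O₁, b2, a2]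
    obtain ⟨O', _, _, _, w', U, c1, c2, c3, c4⟩ := ih O₁ w₁ b1 (nt b3)
    let _ : Algebra O O' := ((algebraMap O₁ O').comp (algebraMap O O₁)).toAlgebra
    let ρ : MvPolynomial Unit O →+* O' :=
      (algebraMap O₁ O').comp ((algebraMap B O₁).comp (algebraMap _ B))
    have r1 : ∀ p, w' (ρ p) = w₀ (algebraMap _ B p) := fun p => (c2 _).trans (b2 _)
    have r2 : ∀ a, ρ (MvPolynomial.C a) = algebraMap O O' a := fun a => rfl
    have le : (algebraMap O O').fieldRange ≤ (algebraMap O₁ O').fieldRange := by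
      rintro _ ⟨a, rfl⟩
      exact ⟨_, rfl⟩
    refine ⟨O', _, _, inferInstance, w', Fin.snoc U (ρ (.X ())), c1, fun a => (c2 _).trans (b3 a),
      fun j => ?_, fun z => ?_⟩
    · refine j.lastCases ⟨?_, fun a ha => ?_⟩ fun j => ?_
      · rw [Fin.snoc_last, r1, a3 _ _ zero_le_one]
        intro m
        rw [MvPolynomial.coeff_X]
        split_ifs <;> simp
      · obtain ⟨a, rfl⟩ := acl_le (fr_cl O O') le_rfl (by
          rintro _ ⟨i, hi, rfl⟩
          exact absurd hi (Fin.le_last i).not_gt) ha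
        rw [Fin.snoc_last, ← r2, ← map_sub, r1]
        have := (a3 (.X () - .C a) _ (w₀.nonneg _)).1 le_rfl (Finsupp.single () 1)
        rwa [MvPolynomial.coeff_sub, MvPolynomial.coeff_X, if_pos rfl, MvPolynomial.coeff_C,
          if_neg (Finsupp.single_ne_zero.2 one_ne_zero).symm, sub_zero, map_one] at this
      · rw [Fin.snoc_castSucc]
        refine ⟨(c3 j).1, fun a ha => (c3 j).2 a (acl_le (lv_cl _ _) (le.trans (le_lv _ _)) ?_ ha)⟩
        rintro _ ⟨i, hi, rfl⟩
        induction i using Fin.lastCases with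
        | last =>
          rw [Fin.snoc_last]
          exact le_lv _ _ ⟨_, rfl⟩
        | cast i =>
          rw [Fin.snoc_castSucc]
          exact sub_acl _ _ ⟨i, Fin.castSucc_lt_castSucc_iff.1 hi, rfl⟩
    · refine acl_le (acl_cl _ _) ?_ ?_ (c4 z)
      · rintro _ ⟨a, rfl⟩
        let _ : Algebra B O' := ((algebraMap O₁ O').comp (algebraMap B O₁)).toAlgebra
        have : IsScalarTower B O₁ O' := .of_algebraMap_eq fun _ => rfl
        have m : ∀ p, ρ p ∈ acl (algebraMap O O').fieldRange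
            (range (Fin.snoc U (ρ (.X ())) : Fin (e + 1) → O')) := fun p => by
          induction p using MvPolynomial.induction_on with
          | C a => exact le_acl _ _ ⟨a, rfl⟩
          | add p q hp hq => rw [map_add]; exact add_mem hp hq
          | mul_X p i hp =>
            rw [map_mul]
            exact mul_mem hp (sub_acl _ _ ⟨Fin.last e, Fin.snoc_last _ _⟩)
        refine bs_le (L := B) (acl_cl _ _) (fun b => ?_)
          (mem_algebraicClosure_iff.2 (Algebra.IsAlgebraic.isAlgebraic a).algebraMap)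
        obtain ⟨p, q, -, rfl⟩ := IsFractionRing.div_surjective (A := MvPolynomial Unit O) b
        rw [map_div₀]
        exact div_mem (m p) (m q)
      · rintro _ ⟨i, rfl⟩
        exact sub_acl _ _ ⟨i.castSucc, Fin.snoc_castSucc _ _ _⟩

variable {F E O O' σ : Type} [Field F] [Algebra ℂ F] [Field E] [Algebra ℂ E] [Field O]
  [Algebra ℂ O] [Field O'] [Algebra ℂ O'] [Algebra F E] [IsScalarTower ℂ F E] {m e : ℕ}
  {w : AbsoluteValue O ℝ} {w' : AbsoluteValue O' ℝ} {x : Fin e → E} {U η γ : Fin e → O'} {R : Pl F}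

theorem alg_tri [Algebra F O'] (top : ∀ z, z ∈ acl (bs F O') (range U))
    (ht : Tri (bs F O') U η γ) (τ : E →ₐ[F] O') (h : ∀ s, τ (x s) = η s) :
    letI := (τ : E →+* O').toAlgebra
    Algebra.IsAlgebraic E O' := by
  let _ := (τ : E →+* O').toAlgebra
  exact ⟨fun a => mem_algebraicClosure_iff.1 (acl_le (bs_cl E O') (bs_le (bs_cl E O')
    fun f => τ.commutes f ▸ base_mem (algebraMap F E f))
    (by rintro _ ⟨j, rfl⟩; exact h j ▸ base_mem (x j)) (ht.acl.ge (top a)))⟩

/-- the place of Gauss -/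
theorem pw_gau [IsAlgClosed O'] [Algebra F O'] (hw' : IsNonarchimedean w')
    (h : Pw w' (algebraMap F O') R) (hu : Tw w' (bs F O') U) (τ : E →ₐ[F] O')
    (k : ∀ s, τ (x s) = U s) (hg : IntermediateField.adjoin F (range x) = ⊤) {P : Pl E}
    (g : Gm.Gau (algebraMap F E) x P R) : Pw w' (τ : E →+* O') P := fun f => by
  have hg' := congrArg IntermediateField.toSubfield hg
  have one : ∀ p : MvPolynomial (Fin e) R.ring, MvPolynomial.map (IsLocalRing.residue _) p ≠ 0 →
      w' (τ (Gm.Ga.ev (algebraMap F E) x R.ring p)) = 1 := fun p hp => by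
    have e1 : τ (Gm.Ga.ev (algebraMap F E) x R.ring p) =
        MvPolynomial.eval₂ ((algebraMap F O').comp R.ring.subtype) (fun j => 1 * U j) p := by
      refine (MvPolynomial.eval₂_comp_left (τ : E →+* O') _ _ p).trans ?_
      congr 1
      · exact RingHom.ext fun a => τ.commutes a
      · exact funext fun j => (k j).trans (one_mul _).symm
    rw [e1]
    refine le_antisymm (ev_le _ hw' _ _ zero_le_one fun i _ => ?_) ?_
    · simpa [(hu _).one] using (h _).1 (p.coeff i).2
    · obtain ⟨i, hi⟩ := MvPolynomial.ne_zero_iff.1 hp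
      have := mon_le ((algebraMap F O').comp R.ring.subtype) hw' (fun a => base_mem _) hu
        (γ := fun _ => 1) (fun _ => ⟨one_mem _, one_ne_zero⟩) p i
      rw [MvPolynomial.coeff_map, Ne, IsLocalRing.residue_eq_zero_iff] at hi
      refine le_trans (not_lt.1 fun l => hi ?_) (by simpa using this)
      exact (Pl.mem_maximalIdeal_iff _ _).2 (mx_iff.1 (h.mx l))
  by_cases f0 : f = 0
  · simp [f0, zero_mem]
  obtain ⟨c, c0, p, q, hp, hq, rfl⟩ := Gm.Ga.exists_dec R.ring hg' f0
  rw [← Pl.ord_nonneg_iff _ f0, g.ord_dec c0 hp hq, g.e hg', one_mul, Pl.ord_nonneg_iff _ c0, h]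
  simp only [RingHom.coe_coe, map_div₀, map_mul, one _ hp, one _ hq, mul_one, div_one,
    τ.commutes]

/-- the place of a point with fresh coordinates -/
theorem up [Fintype σ] [Algebra O O'] [IsScalarTower ℂ O O'] [IsAlgClosed O] [IsAlgClosed O']
    (hF : FF F (m + 1)) (cz : Fintype.card σ = m + 1) {z : σ → F} (hz : AlgebraicIndependent ℂ z)
    (hx : AlgebraicIndependent F x) (hg : IntermediateField.adjoin F (range x) = ⊤)
    (hw' : IsNonarchimedean w') (ex : ∀ a, w' (algebraMap O O' a) = w a)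
    (hU : Tw w' (algebraMap O O').fieldRange U)
    (top : ∀ z, z ∈ acl (algebraMap O O').fieldRange (range U)) {τ : F →ₐ[ℂ] O}
    (h : Pw w (τ : F →+* O) R) (alg : ∀ y : O, IsAlgebraic τ.fieldRange y) (a g : Fin e → O)
    (g0 : ∀ s, g s ≠ 0) : ∃ (τ' : E →ₐ[ℂ] O') (P : Pl E),
      (∀ f, τ' (algebraMap F E f) = algebraMap O O' (τ f)) ∧
      (∀ s, τ' (x s) = algebraMap O O' (a s) + algebraMap O O' (g s) * U s) ∧
      Pw w' (τ' : E →+* O') P ∧ vl w' (τ' P.t) * (kq (Sum.elim (algebraMap F E ∘ z) x) P + 1) =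
        ∑ s, vl w (g s) + vl w' (τ' P.t) * pb (algebraMap F E) (kq z + 1) P := by
  let _ := (τ : F →+* O).toAlgebra
  let _ : Algebra F O' := ((algebraMap O O').comp (τ : F →+* O)).toAlgebra
  have : IsScalarTower F O O' := .of_algebraMap_eq fun _ => rfl
  have : IsScalarTower ℂ F O' := .of_algebraMap_eq fun c => by
    rw [IsScalarTower.algebraMap_apply ℂ O O', ← τ.commutes]
    rfl
  have e1 : (algebraMap O O').fieldRange = bs F O' := le_antisymm (by
    rintro _ ⟨y, rfl⟩
    exact mem_algebraicClosure_iff.2 ((alg y).of_ringHom_of_comp_eq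
      (τ : F →+* O).rangeRestrictField (RingHom.id O)
      (τ : F →+* O).rangeRestrictField_bijective.2 injective_id rfl).algebraMap)
    (bs_le (fr_cl O O') fun f => ⟨τ f, rfl⟩)
  have mem : ∀ y, algebraMap O O' y ∈ bs F O' := fun y => e1 ▸ ⟨y, rfl⟩
  rw [e1] at hU top
  have hE : FF E (e + (m + 1)) := by
    have := Gm.ff_gen (lin F E) hF (Gm.Ga.ind_alg.1 hx) (congrArg IntermediateField.toSubfield hg)
    rwa [Fintype.card_fin, add_comm] at this
  have h' : Pw w' (algebraMap F O') R := fun f => (h f).trans (by rw [← ex]; rfl)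
  have t₀ : Tri (bs F O') U U fun _ => 1 :=
    ⟨fun _ => one_mem _, fun _ => one_ne_zero, fun _ => by simp⟩
  have t₁ : Tri (bs F O') U (fun s => algebraMap O O' (a s) + algebraMap O O' (g s) * U s)
      fun s => algebraMap O O' (g s) := ⟨fun _ => mem _, fun s => (map_ne_zero _).2 (g0 s),
        fun s => by simpa using le_lv _ _ (mem (a s))⟩
  obtain ⟨τ₀, k₀⟩ := hom_of hx hg (t₀.ind base_mem hU)
  obtain ⟨τ₁, k₁⟩ := hom_of hx hg (t₁.ind base_mem hU)
  have sc : ∀ ρ : E →ₐ[F] O', ∀ c, algebraMap ℂ O' c = ρ (algebraMap ℂ E c) := fun ρ c => by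
    rw [IsScalarTower.algebraMap_apply ℂ F E, ρ.commutes, ← IsScalarTower.algebraMap_apply]
  obtain ⟨P, hP, l, -⟩ : ∃ P : Pl E, Pw w' (τ₁ : E →+* O') P ∧ Lies (algebraMap F E) P R ∧ True := by
    obtain ⟨P₀, g₀⟩ := Gm.gau_ex (lin F E) (Gm.Ga.ind_alg.1 hx)
      (congrArg IntermediateField.toSubfield hg) R
    obtain ⟨b, ad⟩ := exists_ada hF R
    let _ := (τ₀ : E →+* O').toAlgebra
    have : IsScalarTower ℂ E O' := .of_algebraMap_eq (sc τ₀)
    have : IsScalarTower F E O' := .of_algebraMap_eq fun c => (τ₀.commutes c).symm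
    have := alg_tri top t₀ τ₀ k₀
    obtain ⟨P, a1, a2, -⟩ := br hE hF hw' (pw_gau hw' h' hU τ₀ k₀ hg g₀) g₀.lies ad hU τ₁ hx
      (funext k₁ ▸ t₁)
    exact ⟨P, a1, a2, trivial⟩
  let _ := (τ₁ : E →+* O').toAlgebra
  have : IsScalarTower ℂ E O' := .of_algebraMap_eq (sc τ₁)
  have : IsScalarTower F E O' := .of_algebraMap_eq fun c => (τ₁.commutes c).symm
  have := alg_tri top t₁ τ₁ k₁
  have := lev0 hE hF hw' hP l hz cz hx hU (funext k₁ ▸ t₁)
  refine ⟨⟨τ₁, fun c => (sc τ₁ c).symm⟩, P, τ₁.commutes, k₁, hP, this.trans ?_⟩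
  simp only [vl, ex]
  rfl

end Vale.Agent.P283B.Ln.Nv
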