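import Vale.Agent.P283B.LN.Nq
import Vale.Agent.P283B.LS.Bri
import Vale.Agent.P283B.LS.RealA

/-!
# P283B, block LN: places over the base point as valuations
-/

set_option linter.unusedVariables false
set_option linter.unusedSectionVars false

open Set Polynomial
open Vale.Agent.P297Z

noncomputable section

namespace Vale.Agent.P283B.Ln.Nv

open P287D P287D.Cb Wp Ls Mono Mb Bi

/-- a place over `v` is an absolute value; finitely many algebraic elements are transported -/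
theorem ovr {L E O : Type} [Field L] [Field E] [Field O] [Algebra ℂ L] [Algebra ℂ E] [Algebra ℂ O]
    {w : AbsoluteValue O ℝ} {v : Pl L} {P : Pl E} (ρ : L →ₐ[ℂ] O) (φ : L →ₐ[ℂ] E)
    (hw : IsNonarchimedean w) (hv : Pw w (ρ : L →+* O) v) (l : Lies (φ : L →+* E) P v) {S : Set O}
    (hS : S.Finite) (alg : ∀ s ∈ S, IsAlgebraic ρ.fieldRange s) :
    ∃ (w₂ : AbsoluteValue (AlgebraicClosure E) ℝ) (N : Subfield O) (ψ : N →+* AlgebraicClosure E),
      IsNonarchimedean w₂ ∧ Pw w₂ (algebraMap E _) P ∧ S ⊆ N ∧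
      (∀ f, ∃ h : ρ f ∈ N, ψ ⟨ρ f, h⟩ = algebraMap E _ (φ f)) ∧ ∀ x : N, w₂ (ψ x) = w x := by
  obtain ⟨w₁, na, pw, lg⟩ := exists_w (Ω := AlgebraicClosure E) P
  obtain ⟨c, c0, hc⟩ := hv.log
  have ep : (0 : ℝ) < P.ord (φ v.t) := Int.cast_pos.2 l.e_pos
  have r0 := div_pos c0 ep
  let _ := (ρ : L →+* O).toAlgebra
  let _ := ((algebraMap E (AlgebraicClosure E)).comp (φ : L →+* E)).toAlgebra
  have := hS.to_subtype
  have : FiniteDimensional L (IntermediateField.adjoin L S) :=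
    IntermediateField.finiteDimensional_adjoin fun x hx => (alg_of L ρ.fieldRange (fun ⟨_, a, e⟩ =>
      e ▸ isAlgebraic_algebraMap a) (alg x hx)).isIntegral
  obtain ⟨ψ, hψ⟩ := Re.emb (K := L) (N := IntermediateField.adjoin L S)
    (v := w.comp (IntermediateField.adjoin L S).val.toRingHom.injective) (Re.pw_na na r0)
    (fun a b => hw a b) fun a => by
      change w (ρ a) = w₁ (algebraMap E _ (φ a)) ^ (c / P.ord (φ v.t) : ℝ)
      by_cases a0 : a = 0
      · simp [a0, r0.ne']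
      have p := w₁.pos ((_root_.map_ne_zero (algebraMap E (AlgebraicClosure E))).2
        ((_root_.map_ne_zero φ).2 a0))
      refine Real.log_injOn_pos (w.pos ((_root_.map_ne_zero ρ).2 a0)) (Real.rpow_pos_of_pos p _) ?_
      rw [Real.log_rpow p, lg, show P.ord (φ a) = _ from l.ord a, show Real.log (w (ρ a)) = _ from
        hc a, Int.cast_mul]
      change _ = c / P.ord (φ v.t) * -(P.ord (φ v.t) * _ : ℝ)
      field_simp
  refine ⟨Re.pw w₁ na r0, (IntermediateField.adjoin L S).toSubfield, ψ.toRingHom, Re.pw_na na r0,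
    fun f => (pw f).trans ?_, IntermediateField.subset_adjoin L S,
    fun f => ⟨IntermediateField.algebraMap_mem _ f, ψ.commutes f⟩, hψ⟩
  rw [Re.pw_apply, ← not_lt, ← not_lt, Real.one_lt_rpow_iff (w₁.nonneg _)]
  simp [r0, r0.not_gt]

variable {L K Ω σ : Type} [Field L] [Field K] [Field Ω] [Algebra ℂ L] [Algebra ℂ K]
  [Algebra L K] [Algebra L Ω] [Algebra K Ω] [IsScalarTower L K Ω] [IsAlgClosed Ω]
  {w : AbsoluteValue Ω ℝ} {P : Pl K} {Q : Pl L} {e m : ℕ} [Fintype σ]

/-- the radii are at least the distances to algebraic points -/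
theorem kqv [Algebra ℂ Ω] [IsScalarTower ℂ L K] [IsScalarTower ℂ K Ω] [Algebra.IsAlgebraic K Ω]
    (hL : FF L (m + 1)) (cz : Fintype.card σ = m + 1) {z : σ → L} (hz : AlgebraicIndependent ℂ z)
    {x : Fin e → K} (hx : AlgebraicIndependent L x) (hK : FF K (e + (m + 1)))
    (hw : IsNonarchimedean w) (hP : Pw w (algebraMap K Ω) P) (l : Lies (algebraMap L K) P Q)
    {α : Fin e → Ω} (hα : ∀ s, α s ∈ bs L Ω) :
    ∑ s, vl w (algebraMap K Ω (x s) - α s) +
      vl w (algebraMap K Ω P.t) * pb (algebraMap L K) (kq z + 1) P ≤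
      vl w (algebraMap K Ω P.t) * (kq (Sum.elim (algebraMap L K ∘ z) x) P + 1) := by
  obtain ⟨u, γ, hu, ht⟩ := Mono.tw L _ w _ (vs hw hP l) base_mem e _ (tw_hyp hK hw hP l hx)
  rw [lev0 hK hL hw hP l hz cz hx hu ht]
  refine add_le_add_left (Finset.sum_le_sum fun s _ => neg_le_neg
    (Real.log_le_log (w.pos (ht.ne s)) ?_)) _
  have := (hu s).lin hw (le_lv u s (ht.mem s)) (ht.ne s) (sub_mem (le_lv u s (hα s)) (ht.cen s))
  rw [show γ s * u s - _ = algebraMap K Ω (x s) - α s by ring] at this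
  exact this ▸ le_max_left _ _

theorem gn_inv (hw : IsNonarchimedean w) {M : Subfield Ω} {x : Ω} (h : Gn w M x) : Gn w M x⁻¹ := by
  have x0 : x ≠ 0 := fun e => h.not_mem (e ▸ zero_mem _)
  refine ⟨by rw [map_inv₀, h.one, inv_one], fun a ha => ?_⟩
  by_cases a0 : a = 0
  · rw [a0, sub_zero, map_inv₀, h.one, inv_one]
  rw [show x⁻¹ - a = -(a * x - 1) * x⁻¹ by field_simp; ring, map_mul, w.map_neg,
    h.lin hw ha a0 (one_mem _), map_inv₀, h.one, inv_one, mul_one, map_one]
  exact le_max_right _ _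

/-- Gauss points are generic points over the algebraic closure -/
theorem gzn (hw : IsNonarchimedean w) (hP : Pw w (algebraMap K Ω) P) {y : K} (y0 : y ≠ 0)
    (o : P.ord y = 0) (h : Gz (algebraMap L K) P y) :
    Gn w (bs L Ω) (algebraMap K Ω y) ∧ Gn w (bs L Ω) (algebraMap K Ω y)⁻¹ := by
  suffices g : Gn w (bs L Ω) (algebraMap K Ω y) from ⟨g, gn_inv hw g⟩
  have y1 := hP.unit y0 o
  refine ⟨y1.le, fun a ha => not_lt.1 fun lt => ?_⟩
  have ia := (mem_algebraicClosure_iff.1 ha).isIntegral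
  let g := (minpoly L a).map (algebraMap L Ω)
  have g0 : g ≠ 0 := Polynomial.map_ne_zero (minpoly.ne_zero ia)
  have ev : g.eval (algebraMap K Ω y) = algebraMap K Ω ((minpoly L a).eval₂ (algebraMap L K) y) := by
    rw [hom_eval₂, ← IsScalarTower.algebraMap_eq, eval_map]
  obtain ⟨c, c0, hc⟩ := hP.log
  have ge : g.gaussNorm w 1 ≤ w (g.eval (algebraMap K Ω y)) := by
    obtain ⟨i, hi⟩ := g.exists_eq_gaussNorm w 1
    rw [hi, one_pow, mul_one, coeff_map, ev]
    by_cases z : (minpoly L a).coeff i = 0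
    · rw [z, map_zero, map_zero]; exact w.nonneg _
    obtain ⟨b, d⟩ := h _ i z
    rw [IsScalarTower.algebraMap_apply L K Ω, ← Real.log_le_log_iff
      (w.pos ((_root_.map_ne_zero _).2 ((_root_.map_ne_zero _).2 z)))
      (w.pos ((_root_.map_ne_zero _).2 b)), hc, hc,
      neg_mul, neg_mul]
    exact neg_le_neg (mul_le_mul_of_nonneg_left (Int.cast_le.2 d) c0.le)
  obtain ⟨s, hs⟩ := dvd_iff_isRoot.2
    (show g.IsRoot a by rw [IsRoot, eval_map_algebraMap, minpoly.aeval])
  have s0 : 0 < s.gaussNorm w 1 := (s.gaussNorm_nonneg w one_pos.le).lt_of_ne' fun k => g0 (by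
    rw [hs, (gaussNorm_eq_zero_iff w s (fun _ => w.eq_zero.1) one_pos).1 k, mul_zero])
  rw [hs, gaussNorm_mul hw one_pos, gn_lin hw one_pos, eval_mul, map_mul, eval_sub, eval_X,
    eval_C] at ge
  exact ((mul_le_mul_of_nonneg_left (eval_le hw y1.le s) (w.nonneg _)).trans_lt
    (mul_lt_mul_of_pos_right (lt.trans_le (le_max_left _ _)) s0)).not_ge ge

end Vale.Agent.P283B.Ln.Nv
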