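import Vale.Agent.P283B.LL.Cj
import Vale.Agent.P283B.LS.Ot

/-!
# P283B, block LN: places on the wall and horizontal places
-/

set_option linter.unusedVariables false
set_option linter.unusedSectionVars false

open Set Function
open Vale.Agent.P297Z

noncomputable section

namespace Vale.Agent.P283B.Ln.Nv

open P287D P287D.Cb Wp Ls Mono Mb Bi

section hor

variable {K E σ ι : Type} [Field K] [Algebra ℂ K] [Field E] [Algebra ℂ E] [Algebra K E]
  [IsScalarTower ℂ K E] {n m : ℕ}

theorem ind_add {s : σ → E} (h : AlgebraicIndependent K s) (c : σ → K) :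
    AlgebraicIndependent K fun b => s b + algebraMap K E (c b) := by
  refine algebraicIndependent_iff.2 fun p hp => ?_
  let f (d : σ → K) : MvPolynomial σ K →ₐ[K] MvPolynomial σ K :=
    MvPolynomial.aeval fun b => MvPolynomial.X b + MvPolynomial.C (d b)
  have e : f c p = 0 := algebraicIndependent_iff.1 h _ (by
    rw [← hp, MvPolynomial.comp_aeval_apply]
    simp)
  have := congrArg (f (-c)) e
  rw [MvPolynomial.comp_aeval_apply, map_zero] at this
  simpa [f] using this

/-- the log discrepancy of a product with a translated torus -/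
theorem kq_add [Fintype σ] [Fintype ι] (hK : FF K n) (hE : FF E m) (h : Fintype.card ι = n)
    (k : n + Fintype.card σ = m) {x : ι → K} {s : σ → E} (hx : AlgebraicIndependent ℂ x)
    (hs : AlgebraicIndependent K s) (c : σ → K) (P : Pl E) :
    pb (algebraMap K E) (kq x + 1) P + ∑ b, (P.ord (s b + algebraMap K E (c b)) : ℝ) ≤
      kq (Sum.elim (algebraMap K E ∘ x) s) P + 1 := by
  have e := Ot.kq_tri hE (ι := ι ⊕ σ) (by simp [h, k]) (fun i => ∃ b, i = .inr b) (a := 1)
    (c := Sum.elim 0 fun b => algebraMap K E (c b)) (Ot.ind_sum hs hx) (by simp)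
    (by rintro (_ | _) <;> simp) (by
      rintro (_ | b)
      · exact ⟨one_mem _, zero_mem _⟩
      · exact ⟨one_mem _, Gm.cl_map (Cst.of_lin (lin K E)) (forall_mem_range.2 fun i =>
          Gm.sub_Cl ⟨.inl i, by simp, rfl⟩) (Gm.cl_basis hK hx h.ge _)⟩)
  have g := Ot.kq_ge hK hE (lin K E) h k hx (fun x hx => Ot.ind_sum (ind_add hs c) hx) P
  simp only [Pi.one_apply, dv_one, Finset.sum_const_zero, add_zero, one_mul] at e
  rw [← e]
  convert g using 4 with i
  rcases i with i | i <;> simp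

/-- **hor**: places of order zero in the parameter -/
theorem hor {e : ℕ} (hK : FF K (n + 1)) {x : Fin (n + 1) → K} (hx : AlgebraicIndependent ℂ x)
    {T : E} {xs : Fin e → E} (hi : AlgebraicIndependent K fun b : Option (Fin e) => b.elim T xs)
    (hg : IntermediateField.adjoin K (range fun b : Option (Fin e) => b.elim T xs) = ⊤) (y : K)
    {ε : ℝ} (e0 : 0 ≤ ε) (e1 : ε < 1) {P : Pl E} (hT : P.ord T = 0)
    (h0 : ∀ s, P.ord (xs s) = 0) {lam : BD K} (hl : ∀ Q, Lies (algebraMap K E) P Q → 0 < lam Q)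
    (S : Finset (Fin e)) :
    0 < kq (Sum.elim (algebraMap K E ∘ x) fun b : Option (Fin e) => b.elim T xs) P + 1 -
      pb (algebraMap K E) (kq x + 1 - lam) P -
      ε * ∑ s ∈ S, (P.ord (algebraMap K E y - xs s) : ℝ) := by
  classical
  have hE := Ot.ff_gen hK hi hg
  have a := kq_add hK hE (by simp) rfl hx hi (fun b => b.elim 0 fun s => if s ∈ S then -y else 0) P
  have b := kq_add hK hE (by simp) rfl hx hi 0 P
  have c : ∀ s, (P.ord (xs s + algebraMap K E (if s ∈ S then -y else 0)) : ℝ) =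
      if s ∈ S then (P.ord (algebraMap K E y - xs s) : ℝ) else 0 := fun s => by
    split_ifs
    · rw [← Pl.ord_neg, map_neg, neg_add, neg_neg, neg_add_eq_sub]
    · simp [h0]
  simp only [Fintype.sum_option, Option.elim_none, Option.elim_some, Pi.zero_apply, map_zero,
    add_zero, hT, h0, c,
    Int.cast_zero, Finset.sum_const_zero, Finset.sum_ite_mem, Finset.univ_inter, zero_add] at a b
  rw [pb_sub, Pi.sub_apply]
  set M := ∑ s ∈ S, (P.ord (algebraMap K E y - xs s) : ℝ)
  have d : 0 < M → ε * M < M := fun k => by nlinarith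
  have f : M ≤ 0 → ε * M ≤ 0 := mul_nonpos_of_nonneg_of_nonpos e0
  rcases okL (L := K) hE P with t | ⟨Q, l⟩
  · have := kq_nonneg hE (by simp)
      (y := Sum.elim (algebraMap K E ∘ x) fun b : Option (Fin e) => b.elim T xs) (P := P) (by
        rintro (i | _ | i)
        exacts [t _, mem_ord hT.ge, mem_ord (h0 i).ge])
    rw [t.pb] at a
    rw [t.pb, t.pb]
    rcases lt_or_ge 0 M with k | k
    · linarith [d k]
    · linarith [f k]
  · have := mul_pos (Int.cast_pos.2 l.e_pos) (hl Q l)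
    rw [← l.pb] at this
    rcases lt_or_ge 0 M with k | k
    · linarith [d k]
    · linarith [f k]

end hor

section wall

variable {F Ω O : Type} [Field F] [Field Ω] [Field O] {w : AbsoluteValue Ω ℝ}
  {v : AbsoluteValue O ℝ}

/-- generic points of discs with the same centre values and the same radius -/
theorem gau2 [IsAlgClosed Ω] [IsAlgClosed O] (φ : F →+* O) (ψ : F →+* Ω) (hv : IsNonarchimedean v)
    (hw : IsNonarchimedean w) {M : Subfield O} {N : Subfield Ω} (hM : Cl M) (hN : Cl N)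
    (p1 : ∀ f, φ f ∈ M) (p2 : ∀ f, ψ f ∈ N) {α β Z : O} {a b x : Ω} (hα : α ∈ M) (hβ : β ∈ M)
    (ha : a ∈ N) (hb : b ∈ N) (b0 : b ≠ 0) (e : v β = w b) (g1 : Gn v M Z) (g2 : Gn w N x)
    (h : ∀ q : Polynomial F, v (q.eval₂ φ α) = w (q.eval₂ ψ a)) (q : Polynomial F) :
    v (q.eval₂ φ (α + β * Z)) = w (q.eval₂ ψ (a + b * x)) := by
  let _ := φ.toAlgebra
  let _ := ψ.toAlgebra
  refine (Re.gau hv hM p1 hα hβ (v.pos_iff.1 (e ▸ w.pos b0)) g1 q).trans
    (.trans ?_ (Re.gau hw hN p2 ha hb b0 g2 q).symm)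
  rw [e]
  refine Re.gn_congr (fun i => ?_) (w.nonneg _)
  rw [Re.hd_eval, Re.hd_eval]
  exact h _

variable [Algebra ℂ F] [Algebra ℂ Ω] {n : ℕ} {E : Subfield Ω} {t : Ω} {u γ : Fin n → Ω} {T : F}
  {y : Fin n → F} {τ : F →ₐ[ℂ] Ω} {R : Pl F}

omit [Algebra ℂ Ω] in
theorem kc_le {c : ℕ} (M : Subfield F) (a1 : ∀ a, algebraMap ℂ F a ∈ M) (a2 : T ∈ M)
    (a3 : ∀ j : Fin n, c ≤ j.1 → y j ∈ M) (a : Re.Kc T y c) : (a : F) ∈ M := by
  refine (IntermediateField.adjoin_le_iff (T := M.toIntermediateField a1)).2 ?_ a.2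
  rintro _ (rfl | ⟨j, hj, rfl⟩)
  exacts [a2, a3 j hj]

theorem wall0 [IsAlgClosed Ω] (s : Se w E t u) (hy : Rf (oo T y)) (hT : τ T = t)
    (ht : Tri E u (fun j => τ (y j)) γ) {ρ : F →+* O} (h : Pw v ρ R) {c : Fin n} {a b : Ω}
    (ha : a ∈ Lv E u c) (hb : b ∈ E) (b0 : b ≠ 0)
    (e : ∀ q : Polynomial (Re.Kc T y (c + 1)), v (ρ (Polynomial.aeval (y c) q)) =
      w (q.eval₂ ((τ : F →+* Ω).comp (algebraMap _ F)) (a + b * u c))) :
    ∃ (τ' : F →ₐ[ℂ] Ω) (γ' : Fin n → Ω), τ' T = t ∧ (∀ j, c < j → τ' (y j) = τ (y j)) ∧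
      τ' (y c) = a + b * u c ∧ Tri E u (fun j => τ' (y j)) γ' ∧ Pw w (τ' : F →+* Ω) R := by
  classical
  have tri : Tri E u (update (fun j => τ (y j)) c (a + b * u c)) (update γ c b) := by
    refine ⟨fun j => ?_, fun j => ?_, fun j => ?_⟩ <;> rcases eq_or_ne j c with rfl | k
    · rwa [update_self]
    · rw [update_of_ne k]
      exact ht.mem j
    · rwa [update_self]
    · rw [update_of_ne k]
      exact ht.ne j
    · rwa [update_self, update_self, add_sub_cancel_right]
    · rw [update_of_ne k, update_of_ne k]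
      exact ht.cen j
  obtain ⟨σ, hσ⟩ := rf_hom hy (Re.ind_tri s (fun k =>
    hy.ind.transcendental none ((isAlgebraic_algHom_iff τ τ.injective).1 (hT ▸ k))) tri)
  have t0 : ∀ j, σ (y j) = update (fun j => τ (y j)) c (a + b * u c) j := fun j => hσ (some j)
  have t2 : ∀ j, j ≠ c → σ (y j) = τ (y j) := fun j k => by rw [t0, update_of_ne k]
  have t3 : σ (y c) = a + b * u c := by rw [t0, update_self]
  let K := Re.Kc T y (c + 1)
  have e1 : ∀ a : K, σ a = τ a := kc_le (RingHom.eqLocusField (σ : F →+* Ω) (τ : F →+* Ω))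
    (fun a => (σ.commutes a).trans (τ.commutes a).symm) ((hσ none).trans hT.symm)
    fun j hj => t2 j (show c < j from hj).ne'
  have val : ∀ q : Polynomial K, w (σ (Polynomial.aeval (y c) q)) =
      v (ρ (Polynomial.aeval (y c) q)) := fun q => by
    rw [e, ← t3, Polynomial.aeval_def]
    refine congrArg w ((Polynomial.hom_eval₂ _ _ (σ : F →+* Ω) _).trans ?_)
    congr 1
    exact RingHom.ext e1
  obtain ⟨τ', γ', b1, b2, b3, b4⟩ := Re.real s (P := R) hy.ind hy.gen c _ σ (funext t0 ▸ tri)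
    (hσ none) fun f hf => by
      have hf' : f ∈ IntermediateField.adjoin K {y c} := by
        refine (IntermediateField.adjoin_le_iff
          (T := (IntermediateField.adjoin K {y c}).restrictScalars ℂ)).2 ?_ hf
        rintro _ (rfl | ⟨j, hj, rfl⟩)
        · exact IntermediateField.algebraMap_mem _
            (⟨_, IntermediateField.subset_adjoin _ _ (mem_insert _ _)⟩ : K)
        · rcases (show c ≤ j from hj).eq_or_lt with rfl | k
          · exact IntermediateField.subset_adjoin K _ rfl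
          · exact IntermediateField.algebraMap_mem _
              (⟨_, IntermediateField.subset_adjoin _ _ (.inr ⟨j, k, rfl⟩)⟩ : K)
      obtain ⟨p, q, rfl⟩ := (IntermediateField.mem_adjoin_simple_iff _ _).1 hf'
      rw [h]
      simp only [map_div₀, val]
  exact ⟨τ', γ', b1, fun j k => (b2 j k.le).trans (t2 j k.ne'), (b2 c le_rfl).trans t3, b3, b4⟩

/-- a place with the values of a point at the level `c` is a point -/
theorem wall1 [IsAlgClosed Ω] (s : Se w E t u) (hF : FF F (n + 1))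
    (hy : AlgebraicIndependent ℂ (oo T y)) (hT : τ T = t)
    (ht : Tri E u (fun j => τ (y j)) γ) {ρ : F →+* O} (h : Pw v ρ R) {c : Fin n} {a b : Ω}
    (ha : a ∈ Lv E u c) (hb : b ∈ E) (b0 : b ≠ 0)
    (e : ∀ q : Polynomial (Re.Kc T y (c + 1)), v (ρ (Polynomial.aeval (y c) q)) =
      w (q.eval₂ ((τ : F →+* Ω).comp (algebraMap _ F)) (a + b * u c))) :
    ∃ (τ' : F →ₐ[ℂ] Ω) (γ' : Fin n → Ω), τ' T = t ∧ (∀ j, c < j → τ' (y j) = τ (y j)) ∧
      τ' (y c) = a + b * u c ∧ Tri E u (fun j => τ' (y j)) γ' ∧ Pw w (τ' : F →+* Ω) R := by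
  let L := IntermediateField.adjoin ℂ (range (oo T y))
  let z : Option (Fin n) → L := fun i => ⟨oo T y i, IntermediateField.subset_adjoin _ _ ⟨i, rfl⟩⟩
  have hz : Rf (oo (z none) fun j => z (some j)) := by
    convert rf_adj hy using 1
    funext i
    cases i <;> rfl
  have p : 0 < R.ord T := (mx_iff.1 (h.mx (show v (ρ T) < 1 by
    have := e (Polynomial.C ⟨T, IntermediateField.subset_adjoin _ _ (mem_insert _ _)⟩)
    rw [Polynomial.aeval_C, Polynomial.eval₂_C] at this
    exact this.trans_lt (show w (τ T) < 1 from hT ▸ s.t1)))).resolve_left (hy.ne_zero none)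
  obtain ⟨Q, l⟩ := (hF.ok L.val R).resolve_left fun k => p.ne' (k.ord (z none))
  let K := Re.Kc (z none) (fun j => z (some j)) (c + 1)
  let κ : K →+* Re.Kc T y (c + 1) := ((L.val : L →+* F).comp (algebraMap K L)).codRestrict _
    (kc_le ((Re.Kc T y (c + 1)).toSubfield.comap (L.val : L →+* F))
      (fun a => (Re.Kc T y (c + 1)).algebraMap_mem a)
      (IntermediateField.subset_adjoin ℂ _ (mem_insert _ _))
      fun j hj => IntermediateField.subset_adjoin ℂ _ (.inr ⟨j, hj, rfl⟩))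
  obtain ⟨σ, γ', a1, a2, a3, a4, a5⟩ := wall0 (τ := τ.comp L.val) s hz hT ht (h.of l) ha hb b0
    fun q => by
      have := e (q.map κ)
      rw [Polynomial.aeval_def, Polynomial.eval₂_map, Polynomial.eval₂_map] at this
      refine .trans ?_ this
      rw [Polynomial.aeval_def]
      exact congrArg (fun x => v (ρ x)) (Polynomial.hom_eval₂ _ _ (L.val : L →+* F) _)
  obtain ⟨τ', d1, d2⟩ := Lm.Bj.ext_emb s.vs.na (rf_ff hz (by simp)) hF a5 l
  exact ⟨τ', γ', (d1 (z none)).trans a1, fun j k => (d1 (z (some j))).trans (a2 j k),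
    (d1 (z (some c))).trans a3,
    (congrArg (Tri E u · γ') (funext fun j => d1 (z (some j)))).mpr a4, d2⟩

/-- **wall**: a place at the generic point of the wall is a point -/
theorem wall [IsAlgClosed Ω] [IsAlgClosed O] [Algebra F O] (s : Se w E t u) (hF : FF F (n + 1))
    (hy : AlgebraicIndependent ℂ (oo T y)) (hT : τ T = t)
    (ht : Tri E u (fun j => τ (y j)) γ) {c : Fin n} {a b : Ω} (ha : a ∈ Lv E u c) (hb : b ∈ E)
    (b0 : b ≠ 0) (hv : IsNonarchimedean v) (h : Pw v (algebraMap F O) R) {M : Subfield O}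
    (hM : Cl M) (m : ∀ f ∈ Re.Kc T y (c + 1), algebraMap F O f ∈ M) {α β Z : O} (hα : α ∈ M)
    (hβ : β ∈ M) (eb : v β = w b) (g : Gn v M Z) (ey : algebraMap F O (y c) = α + β * Z)
    (e : ∀ q : Polynomial (Re.Kc T y (c + 1)),
      v (q.eval₂ ((algebraMap F O).comp (algebraMap _ F)) α) =
        w (q.eval₂ ((τ : F →+* Ω).comp (algebraMap _ F)) a)) :
    ∃ (τ' : F →ₐ[ℂ] Ω) (γ' : Fin n → Ω), τ' T = t ∧ (∀ j, c < j → τ' (y j) = τ (y j)) ∧
      τ' (y c) = a + b * u c ∧ Tri E u (fun j => τ' (y j)) γ' ∧ Pw w (τ' : F →+* Ω) R := by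
  have k : ∀ f : Re.Kc T y (c + 1), τ f ∈ Lv E u c := kc_le ((Lv E u c).comap (τ : F →+* Ω))
    (fun a => le_lv _ c (show τ _ ∈ E from τ.commutes a ▸ s.cE a))
    (le_lv _ c (show τ _ ∈ E from hT ▸ s.tE))
    fun j hj => show τ _ ∈ Lv E u c from ht.lv c ▸ sub_acl _ _ ⟨j, hj, rfl⟩
  refine wall1 s hF hy hT ht h ha hb b0 fun q => .trans ?_ (gau2 (F := Re.Kc T y (c + 1)) _ _ hv
    s.vs.na hM (lv_cl u c) (fun f => m f f.2) k hα hβ ha (le_lv u c hb) b0 eb g (s.tw c) e q)
  rw [← ey, Polynomial.aeval_def, Polynomial.hom_eval₂]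

end wall

end Vale.Agent.P283B.Ln.Nv
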