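import Vale.Agent.P283B.RK.St

/-!
# P283B, block LN: the dual form and small shifts
-/

set_option linter.unusedVariables false

open Set

noncomputable section

namespace Vale.Agent.P283B.Ln.Nv

open Mono Rk

variable {O O' : Type} [Field O] [Field O'] {w : AbsoluteValue O ℝ} {w' : AbsoluteValue O' ℝ}

/-- from the primal form in an extension to the dual form -/
theorem ap_of [Algebra ℂ O] {A S : Type} [CommRing A] [Algebra ℂ A] {n r : ℕ} {Z : Dt O A S n}
    {ι : Type} [Fintype ι] {ξ : ι → S} {l : ℝ} {f : ι → O} {ε : ι → ℝ} (i : O →+* O')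
    (hw : IsNonarchimedean w') (ex : ∀ a, w' (i a) = w a) (g : Fin r → A) (e : Fin r → O')
    (hg : ∀ j, g j ∈ Z.W l) (he : ∀ j, w' (e j) ≤ Real.exp l)
    (h : ∀ p, w' (∑ j, i (Z.va (ξ p) (g j)) * e j - i (f p)) ≤ Real.exp (-ε p)) :
    Ap w Z ξ l f ε := by
  classical
  refine ⟨Finset.univ.image g, by simpa using hg, fun v D D0 a b => ?_⟩
  have e1 : i (∑ p, v p * f p) = ∑ j, i (∑ p, v p * Z.va (ξ p) (g j)) * e j -
      ∑ p, i (v p) * (∑ j, i (Z.va (ξ p) (g j)) * e j - i (f p)) := by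
    simp only [map_sum, map_mul, mul_sub, Finset.sum_sub_distrib, Finset.mul_sum, Finset.sum_mul,
      mul_assoc]
    rw [Finset.sum_comm, sub_sub_cancel]
  rw [← ex, e1]
  refine (na_sub hw _ _).trans (max_le (na_sum hw _ _ D0 fun j _ => ?_)
    (na_sum hw _ _ D0 fun p _ => ?_)) <;> rw [map_mul, ex]
  · refine (mul_le_mul (a _ (by simp)) (he j) (w'.nonneg _) (by positivity)).trans_eq ?_
    rw [mul_assoc, ← Real.exp_add, neg_add_cancel, Real.exp_zero, mul_one]
  · exact (mul_le_mul_of_nonneg_left (h p) (w.nonneg _)).trans (b p)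

/-- principal units -/
theorem one_add (hw : IsNonarchimedean w) {η : ℝ} (η1 : η < 1) {x y : O} (hx : w (x - 1) ≤ η)
    (hy : w (y - 1) ≤ η) : w x = 1 ∧ w (x * y - 1) ≤ η ∧ w (x⁻¹ - 1) ≤ η := by
  have x1 : w x = 1 := by
    have := na_add_lt hw (x := 1) (y := x - 1) (by rw [map_one]; exact hx.trans_lt η1)
    rwa [add_sub_cancel, map_one] at this
  have x0 : x ≠ 0 := fun e => by simp [e] at x1
  refine ⟨x1, ?_, ?_⟩
  · rw [show x * y - 1 = x * (y - 1) + (x - 1) by ring]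
    exact (hw _ _).trans (max_le (by rwa [map_mul, x1, one_mul]) hx)
  · rwa [show x⁻¹ - 1 = -(x - 1) * x⁻¹ by field_simp; ring, map_mul, w.map_neg, map_inv₀, x1,
      inv_one, mul_one]

/-- a small change of the centre and of the radius -/
theorem near (hw : IsNonarchimedean w) {η : ℝ} (η1 : η < 1) {y a b a' b' : O} (y0 : y - a ≠ 0)
    (b0 : b ≠ 0) (ha : w (a' - a) ≤ η * w (y - a)) (hb : w (b' - b) ≤ η * w b) {e : ℤ}
    (he : e = 1 ∨ e = -1) (k : ℕ) : w (((y - a') / b') ^ e) = w (((y - a) / b) ^ e) ∧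
      (w (((y - a) / b) ^ e) ≤ 1 → w ((((y - a') / b') ^ e) ^ k - (((y - a) / b) ^ e) ^ k) ≤ η) := by
  have h1 : w ((y - a') / (y - a) - 1) ≤ η := by
    rwa [show (y - a') / (y - a) - 1 = -(a' - a) / (y - a) by field_simp; ring, map_div₀, w.map_neg,
      div_le_iff₀ (w.pos y0)]
  have h2 : w (b' / b - 1) ≤ η := by
    rwa [show b' / b - 1 = (b' - b) / b by field_simp, map_div₀, div_le_iff₀ (w.pos b0)]
  have η0 := (w.nonneg _).trans h1
  have h3 := (one_add hw η1 h1 (one_add hw η1 h2 h2).2.2).2.1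
  set u := (y - a') / (y - a) * (b' / b)⁻¹ with hu
  have h4 : w (u ^ e - 1) ≤ η := by
    rcases he with rfl | rfl
    · rwa [zpow_one]
    · exact zpow_neg_one u ▸ (one_add hw η1 h3 h3).2.2
  have h5 : ∀ k : ℕ, w ((u ^ e) ^ k - 1) ≤ η := fun k => by
    induction k with
    | zero => simpa
    | succ k ih => exact pow_succ (u ^ e) k ▸ (one_add hw η1 ih h4).2.1
  rw [show (y - a') / b' = (y - a) / b * u by rw [hu, inv_div]; field_simp, mul_zpow, map_mul,
    (one_add hw η1 h4 h4).1, mul_one, mul_pow, ← mul_sub_one, map_mul, map_pow]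
  exact ⟨rfl, fun o => (mul_le_of_le_one_left (w.nonneg _) (pow_le_one₀ (w.nonneg _) o)).trans (h5 k)⟩

end Vale.Agent.P283B.Ln.Nv
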