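import Vale.Agent.P283B.LS.St

/-!
# P283B, block LN: sections on a cover by two charts, in tensor form (statement for places)
-/

set_option linter.unusedVariables false

open Set

noncomputable section

namespace Vale.Agent.P283B.Ln

open P287D Wp Ls

section defs

variable {K E L σ τ : Type} [Field K] [Algebra ℂ K] [Field E] [Algebra ℂ E] [Algebra K E]
  [Field L] [Algebra ℂ L]

/-- `f` is adjoint at `P` for the log discrepancy `a` -/
def Ad (a : BD E) (P : Pl E) (f : E) : Prop := f = 0 ∨ 0 < a P + P.ord f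

/-- the places near the point -/
def Nr (C : AddSubmonoid (BD K)) (P : Pl E) : Prop := ∀ G ∈ C, pb (algebraMap K E) G P = 0

/-- the field of the free variables -/
abbrev L0 (z : σ ⊕ τ → L) : IntermediateField ℂ L :=
  IntermediateField.adjoin ℂ (range fun b => z (.inl b))

/-- `E = K (z b)`, `L = ℂ (z b, c k)` -/
structure Su (z : σ ⊕ τ → L) (φ : L →ₐ[ℂ] E) (c : τ → K) : Prop where
  rf : Rf z
  ind : AlgebraicIndependent K fun b => φ (z (.inl b))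
  gen : IntermediateField.adjoin K (range fun b => φ (z (.inl b))) = ⊤
  cut : ∀ k, φ (z (.inr k)) = algebraMap K E (c k)

/-- the log discrepancy on `E` -/
def la [Fintype σ] {n : ℕ} (x : Fin n → K) (z : σ ⊕ τ → L) (φ : L →ₐ[ℂ] E) (A : BD K)
    (D : BD E) : BD E :=
  kq (Sum.elim (algebraMap K E ∘ x) fun b => φ (z (.inl b))) + 1 - pb (algebraMap K E) A + D

end defs

/-- **GNAD**: if `f` is adjoint on the overlap `ord ζ = 0`, then there is a sum `F` of products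
with bounded poles such that `F` is adjoint where `0 ≤ ord ζ` and `F - f` where `ord ζ ≤ 0` -/
def GNAD : Prop := ForS fun n K _ _ => ∀ (E L σ τ : Type) [Field E] [Algebra ℂ E] [Algebra K E]
  [IsScalarTower ℂ K E] [Field L] [Algebra ℂ L] [Fintype σ] [Fintype τ] (z : σ ⊕ τ → L)
  (φ : L →ₐ[ℂ] E) (c : τ → K) (x : Fin (n + 1) → K) (A H p D₁ : BD K) (C : AddSubmonoid (BD K))
  (D : BD E) (D₂ : BD (L0 z)) (v : Pl L) (π : L0 z) (q N : ℝ) (ζ f : E), Su z φ c →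
  AlgebraicIndependent ℂ x → Nef H → (∀ G ∈ C, 0 ≤ G ∧ ∃ m : ℝ, 0 ≤ m ∧ G - m • H ∈ Prn K) →
  (∃ G ∈ C, Nef (G - A) ∧ Big (G - A)) → Nef D →
  (∀ P, Nr C P → D P ≤ pb (algebraMap K E) D₁ P + pb ((φ.comp (L0 z).val : _ →ₐ[ℂ] E) : _ →+* E) D₂ P) →
  (∀ w, 0 ≤ p w ∧ ∀ k, -(w.ord (c k) : ℝ) ≤ p w) → 0 ≤ q → (∀ k, -(v.ord (z (.inr k)) : ℝ) ≤ q) →
  0 ≤ N → π ≠ 0 → 0 ≤ v.ord (π : L) → ζ ≠ 0 →
  (∀ P, Nr C P → Trv (φ : L →+* E) P → 0 < la x z φ A D P ∧ (P.ord ζ ≤ 0 → f ∈ P.ring)) →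
  (∀ P, Nr C P → Lies (φ : L →+* E) P v → (P.ord ζ = 0 → Ad (la x z φ A D) P f) ∧
    (P.ord ζ ≤ 0 → Ad (la x z φ A D + N • dv (φ π)) P f)) →
  ∃ (r : ℕ) (g : Fin r → K) (e : Fin r → L),
    (∀ l w, (∀ G ∈ C, G w = 0) → Ad (kq x + 1 - A + D₁ + (Fintype.card τ : ℝ) • p) w (g l)) ∧
    (∀ l, e l = 0 ∨ 0 < kq z v + 1 + pb ((L0 z).val : _ →+* L) D₂ v + N * v.ord (π : L) +
      Fintype.card τ * q + v.ord (e l)) ∧
    ∀ P, Nr C P → Lies (φ : L →+* E) P v →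
      (0 ≤ P.ord ζ → Ad (la x z φ A D) P (∑ l, algebraMap K E (g l) * φ (e l))) ∧
      (P.ord ζ ≤ 0 → Ad (la x z φ A D) P (∑ l, algebraMap K E (g l) * φ (e l) - f))

end Vale.Agent.P283B.Ln
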