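import Vale.Agent.P283B.LN.St
import Vale.Agent.P283B.LS.Ot

/-!
# P283B, block LN: extension from a partial graph
-/

set_option linter.unusedVariables false
set_option linter.unusedSectionVars false

open Set MvPolynomial
open Vale.Agent.P297Z

noncomputable section

namespace Vale.Agent.P283B.Ln

open P287D Wp Cb Ls Ls.Ot

variable {E L F : Type} [Field E] [Field L] [Field F] [Algebra ℂ E] [Algebra ℂ L] [Algebra ℂ F]
  {σ τ ι : Type} [Fintype σ] [Fintype τ] [Fintype ι] {n : ℕ}
  [Algebra E F] [Algebra L F] [IsScalarTower ℂ E F] [IsScalarTower ℂ L F]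

/-- extension from a graph which cuts a part of the coordinates -/
theorem ext (hE : FF E (n + 1)) {z : σ ⊕ Option τ → L} (hz : Rf z) (φ : L →ₐ[ℂ] E)
    (hφ : ∀ b, algebraMap L F (z (.inl b)) = algebraMap E F (φ (z (.inl b))))
    (hy : AlgebraicIndependent E fun b => algebraMap L F (z (.inr b)))
    (hg : IntermediateField.adjoin E (range fun b => algebraMap L F (z (.inr b))) = ⊤)
    (cx : Fintype.card ι = n + 1) {x : ι → E} (hx : AlgebraicIndependent ℂ x) {A : BD E} {G : BD L}
    {u : E} (a1 : Nef (-A)) (g1 : Nef G)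
    (a2 : Big (pb (algebraMap E F) (-A) + pb (algebraMap L F) G))
    (k : ∀ w, 0 < (kq x + 1 - A + pb (φ : L →+* E) G + dv u) w) : ∃ g : F,
      (∀ (α : Type) [Fintype α] (c : α → E) (e : α → L),
        g = ∑ i, algebraMap E F (c i) * algebraMap L F (e i) → u = ∑ i, c i * φ (e i)) ∧
      ∀ (R : Pl F) (m : ℝ), (∀ b, -m ≤ R.ord (algebraMap L F (z (.inr b)) -
        algebraMap E F (φ (z (.inr b))))) →
        (g ∈ R.ring ∧ Trv (algebraMap E F) R ∧ Trv (algebraMap L F) R) ∨ g = 0 ∨
        -1 < kq (Sum.elim (algebraMap E F ∘ x) fun b => algebraMap L F (z (.inr b))) R -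
          pb (algebraMap E F) A R + pb (algebraMap L F) G R + (Fintype.card τ + 1) * m +
          R.ord g := by
  classical
  set y := fun b => algebraMap L F (z (.inr b))
  let c : Option τ → F := fun b => algebraMap E F (φ (z (.inr b)))
  have hF : FF F (n + 1 + Fintype.card τ + 1) := by
    have := ff_gen hE hy hg
    rwa [Fintype.card_option] at this
  let t := y none - c none
  have t0 : t ≠ 0 := fun e => hy.transcendental none (sub_eq_zero.1 e ▸ isAlgebraic_algebraMap _)
  let T : Option τ → F := fun o => o.elim t fun b => (y (some b) - c (some b)) / t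
  have e0 : y none = t + c none := (sub_add_cancel _ _).symm
  have e1 : ∀ b, y (some b) = t * T (some b) + c (some b) := fun b => by
    rw [show T (some b) = _ / t from rfl, mul_div_cancel₀ _ t0, sub_add_cancel]
  have gT : IntermediateField.adjoin E (range T) = ⊤ := by
    have m : ∀ b, T b ∈ IntermediateField.adjoin E (range T) := fun b =>
      IntermediateField.subset_adjoin _ _ ⟨b, rfl⟩
    refine eq_top_iff.2 (hg ▸ IntermediateField.adjoin_le_iff.2 (range_subset_iff.2 ?_))
    rintro (_ | b)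
    · exact e0 ▸ add_mem (m none) (IntermediateField.algebraMap_mem _ _)
    · exact e1 b ▸ add_mem (mul_mem (m none) (m _)) (IntermediateField.algebraMap_mem _ _)
  have hT : AlgebraicIndependent E T := Gm.Ga.ind_alg.2 (Gm.ind_of_trdeg (lin E F) hE
    (congrArg IntermediateField.toSubfield gT) (by rw [hF.trdeg, Fintype.card_option]; rfl))
  obtain ⟨P, p1, p2, p3, p4⟩ := qpl (ι := ι) hE hT gT (X_prime (i := none))
  rw [aeval_X] at p3
  have tE : Trv (algebraMap E F) P := fun e => by simpa using p1 (C e)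
  have mT : ∀ b, T b ∈ P.ring := fun b => by simpa using p1 (X b)
  have mt : Mx P t := mx_iff.2 (.inr (zero_lt_one.trans_eq p3.symm))
  let ρ := Gx.hr tE
  have cρ : ∀ a, ρ (algebraMap ℂ E a) = algebraMap ℂ P.κ a := fun a => by
    rw [Gx.hr_apply tE, lin, rd_const]
  let _ := ρ.toAlgebra
  have : IsScalarTower ℂ E P.κ := .of_algebraMap_eq fun a => (cρ a).symm
  have iT : AlgebraicIndependent E fun b => P.rd (T (some b)) :=
    algebraicIndependent_iff.2 fun p hp => by
      have q := rd_ev tE (fun b => mT (some b)) p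
      obtain ⟨r, hr⟩ := (p2 (rename some p)).1 (by
        rw [aeval_rename]; exact (rd_eq_zero q.1).1 (q.2.trans hp))
      have := congrArg (aeval fun o : Option τ => o.elim (0 : MvPolynomial τ E) X) hr
      rw [aeval_rename, map_mul, aeval_X] at this
      exact (aeval_X_left_apply p).symm.trans (this.trans (zero_mul _))
  have my : ∀ b, algebraMap L F (z b) ∈ P.ring ∧ P.rd (algebraMap L F (z b)) = ρ (φ (z b)) := by
    have : ∀ a b, Mx P a → a + c b ∈ P.ring ∧ P.rd (a + c b) = ρ (φ (z (.inr b))) := fun a b m =>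
      ⟨add_mem m.mem (tE _), by
        rw [rd_add m.mem (tE _), (rd_eq_zero m.mem).2 m, zero_add, Gx.hr_apply tE]⟩
    rintro (b | _ | b)
    · rw [hφ]
      exact ⟨tE _, (Gx.hr_apply tE _).symm⟩
    · change y none ∈ _ ∧ P.rd (y none) = _
      exact e0 ▸ this _ _ mt
    · change y (some b) ∈ _ ∧ P.rd (y (some b)) = _
      exact e1 b ▸ this _ _ (mul_comm t _ ▸ mt.mul (mT _))
  let ψ := IsScalarTower.toAlgHom ℂ L F
  let θ := (ah ρ cρ).comp φ
  have ev : ∀ p : MvPolynomial (σ ⊕ Option τ) ℂ, P.rd (ψ (aeval z p)) = θ (aeval z p) := fun p => by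
    rw [comp_aeval_apply _ ψ, comp_aeval_apply _ θ]
    exact (rd_aeval (fun b => (my b).1) p).trans (congrArg (aeval · p) (funext fun b => (my b).2))
  have tL : Trv (algebraMap L F) P := rf_trv hz ψ (fun b => (my b).1) fun p m =>
    algebraicIndependent_iff.1 hz.ind p ((map_eq_zero θ).1 ((ev p).symm.trans
      ((rd_eq_zero m.mem).2 m)))
  have eL : ∀ f, θ f = P.rd (algebraMap L F f) := fun f => by
    obtain ⟨p, q, rfl⟩ := (IntermediateField.mem_adjoin_range_iff ℂ z f).1 (hz.gen ▸ trivial)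
    rw [← Gx.hr_apply tL, map_div₀, map_div₀, Gx.hr_apply tL, Gx.hr_apply tL, ← ev, ← ev]
    rfl
  have cl : ∀ (w : ι ⊕ Option τ → F) (S : Set _), (∀ i, w (.inl i) = algebraMap E F (x i)) →
      (∀ i, .inl i ∈ S) → ∀ e, algebraMap E F e ∈ Gm.Cl (w '' S) := fun w S a b e =>
    Gm.cl_map (Cst.of_lin (lin E F)) (forall_mem_range.2 fun i => Gm.sub_Cl ⟨_, b i, a i⟩)
      (Gm.cl_basis hE hx cx.ge e)
  have cd : Fintype.card (ι ⊕ Option τ) = n + 1 + Fintype.card τ + 1 := by
    simp [add_assoc, cx]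
  have f1 := kq_tri hF cd (fun i => ∃ b, i = .inr (some b))
    (a := Sum.elim 1 fun o => o.elim 1 fun _ => t) (c := Sum.elim 0 fun o => o.elim 0 (c ∘ some))
    (ind_sum hT hx) (by rintro (_ | _ | _) <;> simp [t0]) (by rintro (_ | _ | _) <;> simp) (by
      rintro (_ | _ | _)
      exacts [⟨one_mem _, zero_mem _⟩, ⟨one_mem _, zero_mem _⟩,
        ⟨Gm.sub_Cl ⟨.inr none, by simp, rfl⟩, cl _ _ (fun _ => rfl) (by simp) _⟩])
  have f2 := kq_tri hF cd (· = .inr none) (a := 1)
    (c := Sum.elim 0 fun o => o.elim (-c none) 0) (ind_sum hy hx) (by simp)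
    (by rintro (_ | _ | _) <;> simp) (by
      rintro (_ | _ | _)
      exacts [⟨one_mem _, zero_mem _⟩, ⟨one_mem _, neg_mem (cl _ _ (fun _ => rfl) (by simp) _)⟩,
        ⟨one_mem _, zero_mem _⟩])
  have f3 : kq (Sum.elim (algebraMap E F ∘ x) y) =
      kq (Sum.elim (algebraMap E F ∘ x) T) + (Fintype.card τ : ℝ) • dv t := by
    have := f2.symm.trans ((congrArg kq (funext (by
      rintro (_ | _ | b)
      · rfl
      · simp [e0, T]
      · simp [e1]))).trans f1)
    simpa [Fintype.sum_option, Nat.cast_smul_eq_nsmul] using this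
  let S : Finset F := insert 1 (Finset.univ.image fun b => T (some b))
  have s1 : (1 : F) ∈ S := Finset.mem_insert_self _ _
  have s2 : ∀ b, T (some b) ∈ S := fun b => by simp [S]
  have s3 : ∀ R : Pl F, ∀ a : ℤ, 0 ≤ a → (∀ b, -R.ord (T (some b)) ≤ a) → R.mz S ≤ a :=
    fun R a p q => R.mz_le ⟨1, s1, one_ne_zero⟩ (by simpa [S] using ⟨p, fun b _ => q b⟩)
  have s4 : P.mz S = 0 := le_antisymm (s3 P 0 le_rfl fun b =>
    neg_nonpos.2 (Pl.ord_nonneg_of_mem _ (mT _))) (by simpa using P.le_mz s1 one_ne_zero)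
  obtain ⟨j, -, ej⟩ := kq_cn hF cd (ind_sum hT hx)
  have oE := okL (L := E) hF
  have oL := okL (L := L) hF
  have cA : A ∈ Car E := neg_mem_iff.1 a1.car
  let s : ℝ := Fintype.card τ + 1
  have s0 : 0 ≤ s := by positivity
  let B := pb (algebraMap E F) A - pb (algebraMap L F) G - s • mx S
  have d : dsc (n + 1 + Fintype.card τ + 1) (B + (dv t - dv j)) =
      kq (Sum.elim (algebraMap E F ∘ x) T) - dv t - B := by rw [ej, dsc]; abel
  have pr : -(B + (dv t - dv j)) - (pb (algebraMap E F) (-A) + pb (algebraMap L F) G + s • mx S) ∈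
      Prn F := by
    rw [pb_neg, show ∀ a b c d e : BD F, -(a - b - c + (d - e)) - (-a + b + c) = e - d from
      fun _ _ _ _ _ => by abel]
    exact sub_mem (dv_mem_Prn _) (dv_mem_Prn _)
  have hκ := Gm.ff_κ P hF
  have oρ : Ok ρ := okL (L := E) hκ
  have ad := adj_kq hF (σ := ι ⊕ τ) (by simp [cx]) (a := t)
    (u := Sum.elim (algebraMap E F ∘ x) fun b => T (some b)) p3
    (by rintro (i | i); exacts [tE _, mT (some i)])
    ((congrArg (fun w => AlgebraicIndependent ℂ w) (funext (by
      rintro (i | i); exacts [Gx.hr_apply tE _, rfl]))).mp (ind_sum iT hx))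
    (sub_mem (sub_mem (oE.car cA) (oL.car g1.car)) ((Car F).smul_mem s (mx_mem_Car S)))
    (d.trans (congrArg (· - dv t - B)
      (kq_congr hF (by simp [cx]) (oR _ _) (by rintro (_ | _ | _) <;> rfl))))
  rw [res_sub_smul hF P (sub_mem (oE.car cA) (oL.car g1.car)) (mx_mem_Car S),
    res_sub hF P (oE.car cA) (oL.car g1.car), res_mx hF,
    Pb.res_trv res' hF oE tE (ρ := ρ) (Gx.hr_apply tE) oρ cA,
    Pb.res_trv res' hF oL tL (ρ := ρ.comp φ) eL (hκ.ok θ) g1.car, oρ.pb_comp,
    show (fun i => P.rd (Sum.elim (algebraMap E F ∘ x) (fun b => T (some b)) i)) =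
      Sum.elim (ρ ∘ x) fun b => P.rd (T (some b)) from funext (by
        rintro (i | i); exacts [(Gx.hr_apply tE _).symm, rfl])] at ad
  obtain ⟨g, m, r, a⟩ := Ku.uext _ F hF P _ (ρ u)
    ((((oE.nef a1).add (oL.nef g1)).add ((nef_mx S).smul s0)).congr pr)
    ((a2.add_nef ((nef_mx S).smul s0)).congr pr) (by
      rw [d]
      simp only [B, Pi.sub_apply, Pi.smul_apply, p4 x cx hx, tE.pb, tL.pb, mx_apply, s4,
        dv_apply, show P.ord t = 1 from p3]
      simp) fun Q => .inr (by
      have ge := kq_ge hE hκ cρ cx rfl hx (fun x hx => ind_sum iT hx) Q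
      have m0 : (0 : ℝ) ≤ Q.mz (P.rs S) := mx_nonneg (Finset.mem_image.2 ⟨1, s1, by
        rw [s4, zpow_zero, mul_one, Bm.rd_one]⟩) Q
      have m1 : ∀ b, -(Q.mz (P.rs S) : ℝ) ≤ Q.ord (P.rd (T (some b))) := fun b => by
        have := Q.le_mz (s := P.rs S) (Finset.mem_image.2 ⟨_, s2 b, by
          rw [s4, zpow_zero, mul_one]⟩) (iT.ne_zero b)
        exact_mod_cast neg_le.1 this
      have m2 := Finset.sum_le_sum fun b (_ : b ∈ Finset.univ) => m1 b
      rw [Finset.sum_const, Finset.card_univ, nsmul_eq_mul] at m2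
      have e := congrFun (show pb ρ (kq x + 1 - A + pb (φ : L →+* E) G + dv u) = pb ρ (kq x + 1) -
        pb ρ A + pb ρ (pb (φ : L →+* E) G) + dv (ρ u) by rw [pb_add, pb_add, pb_sub, oρ.pb_dv]) Q
      rw [ad]
      simp only [Pi.sub_apply, Pi.add_apply, Pi.smul_apply, smul_eq_mul, mx_apply, dv_apply, s] at e ⊢
      rcases oρ Q with q | ⟨w, l⟩
      · rcases m0.eq_or_lt with v | v
        · have := kq_nonneg hκ (by simp [cx]) (y := Sum.elim (ρ ∘ x) fun b => P.rd (T (some b))) (P := Q)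
            (by rintro (i | i); exacts [q _, mem_ord (by simpa [← v] using m1 i)])
          simp only [q.pb, q.ord, ← v, Int.cast_zero]
          linarith
        · rw [q.pb] at e
          linarith
      · have := mul_pos (Int.cast_pos.2 l.e_pos) (k w)
        rw [← l.pb] at this
        linarith)
  refine ⟨g, fun α _ c e hg => ρ.injective ?_, fun R μ r1 => ?_⟩
  · let b : P.ring := ∑ i, ⟨_, tE (c i)⟩ * ⟨_, tL (e i)⟩
    let rs : P.ring →+* P.κ := IsLocalRing.residue P.ring
    rw [← r, show g = b by simpa [b] using hg, map_sum]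
    refine (rd_of b.2).trans ((map_sum rs _ _).trans (Finset.sum_congr rfl fun i _ => ?_))
    rw [map_mul, map_mul]
    exact congrArg _ ((eL _).trans (rd_of _)).symm
  by_cases v : R = P
  · exact .inl (v ▸ ⟨m, tE, tL⟩)
  refine .inr ((a R v).imp_right fun v => ?_)
  have r2 : ∀ b, -R.ord (y b - c b) ≤ ⌊μ⌋ := fun b =>
    Int.le_floor.2 (by push_cast; exact neg_le.1 (r1 b))
  have := s3 R (R.ord t + ⌊μ⌋) (neg_le_iff_add_nonneg'.1 (r2 none)) fun b => by
    have := r2 (some b)
    rw [e1, add_sub_cancel_right, Pl.ord_mul _ t0 (hT.ne_zero _)] at this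
    omega
  have := mul_le_mul_of_nonneg_left ((Int.cast_le (R := ℝ).2 this).trans
    (by push_cast; exact add_le_add_right (Int.floor_le μ) _ : _ ≤ R.ord t + μ)) s0
  rw [d] at v
  rw [f3]
  simp only [B, s, Pi.sub_apply, Pi.add_apply, Pi.smul_apply, smul_eq_mul, mx_apply, dv_apply] at *
  linarith

end Vale.Agent.P283B.Ln
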