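import Vale.Agent.P283B.LN.Nad

/-!
# P283B, block LN: the hypothesis is needed at the lifts of the Gauss point only
-/

set_option linter.unusedVariables false
set_option linter.unusedSectionVars false

open Set Polynomial
open Vale.Agent.P297Z

noncomputable section

namespace Vale.Agent.P283B.Ln

open P287D Wp Cb Ls Ls.Ot Lcb

/-- `y` is generic in the unit disc over `L` -/
def Gz {L E : Type} [Field L] [Field E] [Algebra ℂ E] (φ : L →+* E) (P : Pl E) (y : E) : Prop :=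
  ∀ (p : L[X]) (i : ℕ), p.coeff i ≠ 0 →
    p.eval₂ φ y ≠ 0 ∧ P.ord (p.eval₂ φ y) ≤ P.ord (φ (p.coeff i))

/-- **GNADQ** -/
def GNADQ : Prop := ForS fun n K _ _ => ∀ (E L σ τ : Type) [Field E] [Algebra ℂ E] [Algebra K E]
  [IsScalarTower ℂ K E] [Field L] [Algebra ℂ L] [Fintype σ] [Fintype τ] (z : σ ⊕ τ → L)
  (φ : L →ₐ[ℂ] E) (c : τ → K) (x : Fin (n + 1) → K) (A H p D₁ : BD K) (C : AddSubmonoid (BD K))
  (D : BD E) (D₂ : BD (L0 z)) (v : Pl L) (π : L0 z) (q N : ℝ) (y f : E), Su z φ c →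
  AlgebraicIndependent ℂ x → Nef H → (∀ G ∈ C, 0 ≤ G ∧ ∃ m : ℝ, 0 ≤ m ∧ G - m • H ∈ Prn K) →
  (∃ G ∈ C, Nef (G - A) ∧ Big (G - A)) → Nef D →
  (∀ P, Nr C P → D P ≤ pb (algebraMap K E) D₁ P +
    pb ((φ.comp (L0 z).val : _ →ₐ[ℂ] E) : _ →+* E) D₂ P) →
  (∀ w, 0 ≤ p w ∧ ∀ k, -(w.ord (c k) : ℝ) ≤ p w) → 0 ≤ q → (∀ k, -(v.ord (z (.inr k)) : ℝ) ≤ q) →
  0 ≤ N → π ≠ 0 → 0 ≤ v.ord (π : L) → y ≠ 0 →
  (∀ P, Nr C P → Trv (φ : L →+* E) P → 0 < la x z φ A D P ∧ (0 ≤ P.ord y → f ∈ P.ring)) →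
  (∀ P, Nr C P → Lies (φ : L →+* E) P v →
    (P.ord y = 0 → Gz (φ : L →+* E) P y → Ad (la x z φ A D) P f) ∧
    (0 ≤ P.ord y → Ad (la x z φ A D + N • dv (φ π)) P f)) →
  ∃ (r : ℕ) (g : Fin r → K) (e : Fin r → L),
    (∀ l w, (∀ G ∈ C, G w = 0) → Ad (kq x + 1 - A + D₁ + (Fintype.card τ : ℝ) • p) w (g l)) ∧
    (∀ l, e l = 0 ∨ 0 < kq z v + 1 + pb ((L0 z).val : _ →+* L) D₂ v + N * v.ord (π : L) +
      Fintype.card τ * q + v.ord (e l)) ∧
    ∀ P, Nr C P → Lies (φ : L →+* E) P v →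
      (P.ord y < 0 → Ad (la x z φ A D) P (∑ l, algebraMap K E (g l) * φ (e l))) ∧
      (0 < P.ord y → Ad (la x z φ A D) P (∑ l, algebraMap K E (g l) * φ (e l) - f))

namespace Nq

variable {K E L : Type} [Field K] [Field E] [Field L] [Algebra ℂ K] [Algebra ℂ E] [Algebra ℂ L]
  {O : Type} [CommRing O] {χ : O →+* E} {P : Pl E} {y : E} {φ : L →+* E} {v : Pl L} {m k : ℕ}

/-- the residue map -/
def rs (P : Pl E) : P.ring →+* P.κ := IsLocalRing.residue P.ring

theorem evr (h : ∀ a, χ a ∈ P.ring) (hy : y ∈ P.ring) (q : O[X]) : q.eval₂ χ y ∈ P.ring ∧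
    P.rd (q.eval₂ χ y) = q.eval₂ ((rs P).comp (χ.codRestrict P.ring h)) (P.rd y) := by
  have e := hom_eval₂ q (χ.codRestrict P.ring h) P.ring.subtype ⟨y, hy⟩
  change _ = q.eval₂ χ y at e
  rw [← e, rd_of hy]
  exact ⟨Subtype.property _, (rd_of (Subtype.property _)).trans (hom_eval₂ q _ (rs P) _)⟩

theorem un (h : ∀ a, χ a ∈ P.ring) (hy : Mx P y) {q : O[X]} (u : IsUnit (q.coeff 0)) :
    q.eval₂ χ y ≠ 0 ∧ P.ord (q.eval₂ χ y) = 0 := by
  obtain ⟨a, b⟩ := evr h hy.mem q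
  rw [(rd_eq_zero hy.mem).2 hy, eval₂_at_zero] at b
  have c : P.rd (q.eval₂ χ y) ≠ 0 := b ▸ (u.map _).ne_zero
  exact ⟨fun e => c (by rw [e, Gm.rd_zero]), ord_zero_of a c⟩

theorem three (h : ∀ a, χ a ∈ P.ring) (y0 : y ≠ 0) {q : O[X]} (hq : q.Monic)
    (u : IsUnit (q.coeff 0)) : (0 < P.ord y → P.ord (q.eval₂ χ y) = 0) ∧
      (P.ord y = 0 → 0 ≤ P.ord (q.eval₂ χ y)) ∧
      (P.ord y < 0 → P.ord (q.eval₂ χ y) = q.natDegree * P.ord y) := by
  refine ⟨fun e => (un h (mx_iff.2 (.inr e)) u).2,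
    fun e => Pl.ord_nonneg_of_mem _ (evr h (mem_ord e.ge) q).1, fun e => ?_⟩
  let _ := invertibleOfNonzero y0
  obtain ⟨a, b⟩ := un (y := ⅟y) (q := q.reverse) h (mx_iff.2 (.inr (by
    rw [invOf_eq_inv, Pl.ord_inv]; omega))) (by rw [coeff_zero_reverse, hq]; exact isUnit_one)
  rw [← eval₂_reverse_mul_pow, Pl.ord_mul _ a (pow_ne_zero _ y0), b, zero_add, Pl.ord_pow]

theorem sq (l : Lies φ P v) (h : ∀ a, φ.comp v.ring.subtype a ∈ P.ring) :
    (rs P).comp ((φ.comp v.ring.subtype).codRestrict P.ring h) = l.κ.comp (rs v) :=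
  RingHom.ext fun a =>
  ((congrArg l.κ (rd_of a.2).symm).trans ((l.isRd a a.2).trans (rd_of (h a)))).symm

theorem gz (l : Lies φ P v) (y0 : y ≠ 0) (o : P.ord y = 0) (k : ∀ q : v.ring[X], q.Monic →
    IsUnit (q.coeff 0) → q.eval₂ (φ.comp v.ring.subtype) y ≠ 0 →
    P.ord (q.eval₂ (φ.comp v.ring.subtype) y) = 0) : Gz φ P y := by
  classical
  have h : ∀ a, φ.comp v.ring.subtype a ∈ P.ring := fun a => (l _).1 a.2
  have hy := mem_ord o.ge
  let rs := rs v
  have su : Function.Surjective rs := IsLocalRing.residue_surjective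
  let _ := l.κ.toAlgebra
  have ev : ∀ q : v.ring[X], P.rd (q.eval₂ (φ.comp v.ring.subtype) y) =
      aeval (P.rd y) (q.map rs) := fun q => by
    rw [(evr h hy q).2, sq l h, aeval_def, eval₂_map]; rfl
  have tr : Transcendental v.κ (P.rd y) := fun a => by
    have r0 : P.rd y ≠ 0 := fun e => by
      rcases mx_iff.1 ((rd_eq_zero hy).1 e) with e | e
      exacts [y0 e, e.ne' o]
    obtain ⟨q, e, d, mo⟩ := lifts_and_natDegree_eq_and_monic
      (mem_lifts_of_surjective su (minpoly v.κ (P.rd y))) (minpoly.monic a.isIntegral)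
    have d0 : 0 < q.natDegree := d ▸ minpoly.natDegree_pos a.isIntegral
    have u : rs (q.coeff 0) ≠ 0 := by
      rw [← coeff_map, e]; exact minpoly.coeff_zero_ne_zero a.isIntegral r0
    have mx : Mx P (q.eval₂ (φ.comp v.ring.subtype) y) :=
      (rd_eq_zero (evr h hy q).1).1 (by rw [ev, e, minpoly.aeval])
    rcases mx_iff.1 mx with z | z
    · let t : v.ring := ⟨v.t, t_mem v⟩
      have e1 : (q + C t).eval₂ (φ.comp v.ring.subtype) y = φ v.t := by
        rw [eval₂_add, z, zero_add, eval₂_C]; rfl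
      have t0 : rs t = 0 := (rd_of t.2).symm.trans ((rd_eq_zero t.2).2
        (mx_iff.2 (.inr (zero_lt_one.trans_eq v.ord_t.symm))))
      refine l.e_pos.ne' (e1 ▸ k (q + C t) (mo.add_of_left (degree_C_le.trans_lt
        (natDegree_pos_iff_degree_pos.1 d0))) ?_ (e1 ▸ (map_ne_zero φ).2 v.t_ne))
      refine (IsLocalRing.residue_ne_zero_iff_isUnit _).1 (show rs _ ≠ 0 from ?_)
      rwa [coeff_add, coeff_C_zero, map_add, t0, add_zero]
    · exact z.ne' (k q mo ((IsLocalRing.residue_ne_zero_iff_isUnit _).1 u) fun e => by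
        rw [e, Pl.ord_zero] at z; exact z.false)
  intro p i hi
  obtain ⟨j, hj, mn⟩ := p.support.exists_min_image (fun i => v.ord (p.coeff i))
    ⟨i, mem_support_iff.2 hi⟩
  have j0 := mem_support_iff.1 hj
  obtain ⟨q, e⟩ := (mem_lifts (f := v.ring.subtype) (C (p.coeff j)⁻¹ * p)).1
    ((lifts_iff_coeff_lifts _).2 fun a => ⟨⟨_, show _ * p.coeff a ∈ v.ring by
      by_cases z : p.coeff a = 0
      · rw [z, mul_zero]; exact zero_mem _
      · refine mem_ord ?_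
        rw [Pl.ord_mul _ (inv_ne_zero j0) z, Pl.ord_inv]
        have := mn a (mem_support_iff.2 z)
        omega⟩, (coeff_C_mul _).symm⟩)
  have q1 : q.coeff j = 1 := Subtype.ext (by
    have := congrArg (coeff · j) e
    simpa [coeff_C_mul, j0] using this)
  have r0 : P.rd (q.eval₂ (φ.comp v.ring.subtype) y) ≠ 0 := fun z => by
    have := congrArg (coeff · j) (transcendental_iff.1 tr _ ((ev q).symm.trans z))
    simp [q1] at this
  have o1 := ord_zero_of (evr h hy q).1 r0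
  have n0 : q.eval₂ (φ.comp v.ring.subtype) y ≠ 0 := fun z => r0 (by rw [z, Gm.rd_zero])
  have j1 := (map_ne_zero φ).2 j0
  rw [← eval₂_map, e, eval₂_mul, eval₂_C, map_inv₀] at o1 n0
  refine ⟨right_ne_zero_of_mul n0, ?_⟩
  rw [Pl.ord_mul _ (inv_ne_zero j1) (right_ne_zero_of_mul n0), Pl.ord_inv] at o1
  have := mul_le_mul_of_nonneg_left (mn i (mem_support_iff.2 hi)) l.e_pos.le
  rw [← l.ord, ← l.ord] at this
  omega

theorem exq [Algebra K E] [IsScalarTower ℂ K E] (hE : FF E (m + 1)) (hL : FF L k)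
    (φ : L →ₐ[ℂ] E) {H : BD K} {C : AddSubmonoid (BD K)} (hH : H ∈ Car K)
    (hC : ∀ G ∈ C, 0 ≤ G ∧ ∃ m : ℝ, 0 ≤ m ∧ G - m • H ∈ Prn K) (v : Pl L) {Γ : BD E}
    (cΓ : Γ ∈ Car E) (y0 : y ≠ 0) (h : ∀ P, Nr C P → P.ord y = 0 → Trv (φ : L →+* E) P ∨
      Lies (φ : L →+* E) P v ∧ Gz (φ : L →+* E) P y → -1 < dsc (m + 1) Γ P) :
    ∃ q : v.ring[X], q.Monic ∧ IsUnit (q.coeff 0) ∧
      q.eval₂ ((φ : L →+* E).comp v.ring.subtype) y ≠ 0 ∧ ∀ P, Nr C P → Lies (φ : L →+* E) P v →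
        P.ord y = 0 → P.ord (q.eval₂ ((φ : L →+* E).comp v.ring.subtype) y) = 0 →
        -1 < dsc (m + 1) Γ P := by
  obtain _ | k := k
  · exact (no_pl hL v).elim
  obtain ⟨s, κ, T, _, l, hT, -⟩ := exists_ls hL (finite_singleton v) finite_empty (by simp)
  have ok := hE.ok φ
  have oK := okL (L := K) hE
  set χ := (φ : L →+* E).comp v.ring.subtype
  let Z := pld y + pld y⁻¹
  have z0 : 0 ≤ Z := add_nonneg (pld_nonneg _) (pld_nonneg _)
  have zz : ∀ P, Z P = 0 ↔ P.ord y = 0 := fun P => by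
    change pld y P + pld y⁻¹ P = 0 ↔ _
    rw [add_eq_zero_iff_of_nonneg (pld_nonneg _ P) (pld_nonneg _ P), pld_apply, pld_apply, max_eq_left_iff, max_eq_left_iff, neg_nonpos, neg_nonpos, Int.cast_nonneg_iff,
      Int.cast_nonneg_iff, Pl.ord_inv]
    omega
  let C' : AddSubmonoid (BD E) :=
    { carrier := {G | 0 ≤ G ∧ ∃ a ∈ C, ∃ b ∈ Wt (mx s) v, ∃ (j : ℕ) (q : v.ring[X]), q.Monic ∧
        IsUnit (q.coeff 0) ∧ q.eval₂ χ y ≠ 0 ∧ G = pb (algebraMap K E) a + pb (φ : L →+* E) b +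
          (j : ℝ) • Z + dv (q.eval₂ χ y)}
      add_mem' := by
        rintro _ _ ⟨g, a, ha, b, hb, j, q, p1, p2, p3, rfl⟩ ⟨g', a', ha', b', hb', j', q', r1, r2, r3, rfl⟩
        refine ⟨add_nonneg g g', _, add_mem ha ha', _, add_mem hb hb', j + j', q * q', p1.mul r1,
          mul_coeff_zero q q' ▸ p2.mul r2, eval₂_mul χ y ▸ mul_ne_zero p3 r3, ?_⟩
        rw [eval₂_mul, dv_mul p3 r3, pb_add, pb_add, Nat.cast_add, add_smul]
        abel
      zero_mem' := ⟨le_rfl, 0, zero_mem _, 0, zero_mem _, 0, 1, monic_one, by simp, by simp, by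
        simp [pb_zero]⟩ }
  have mem : ∀ a ∈ C, ∀ b ∈ Wt (mx s) v, ∀ j : ℕ, pb (algebraMap K E) a + pb (φ : L →+* E) b +
      (j : ℝ) • Z ∈ C' := fun a ha b hb j => ⟨add_nonneg (add_nonneg (pb_nonneg _ (hC a ha).1)
    (pb_nonneg _ (wt_nn hb))) (smul_nonneg j.cast_nonneg z0), a, ha, b, hb, j, 1, monic_one,
    by simp, by simp, by simp⟩
  obtain ⟨_, ⟨-, a, ha, b, hb, j, q, p1, p2, p3, rfl⟩, kl⟩ := klt3 (C := C') hE cΓ (oK.car hH)
    (ok.car (mx_mem_Car s)) (add_mem (pld_car y) (pld_car y⁻¹)) (by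
      rintro _ ⟨g, a, ha, b, hb, j, q, -, -, -, rfl⟩
      obtain ⟨-, m, -, e⟩ := hC a ha
      obtain ⟨m', e'⟩ := wt_prn hb
      refine ⟨g, m, m', j, ?_⟩
      have e1 := oK.prn e
      have e2 := ok.prn e'
      rw [pb_sub, pb_smul] at e1 e2
      rw [add_sub_right_comm, add_sub_add_right_eq_sub, add_sub_add_comm]
      exact add_mem (add_mem e1 e2) (dv_mem_Prn _))
    fun w hw => by
      have o := (zz w).1 (by simpa [pb_zero] using hw _ (mem 0 (zero_mem _) 0 (zero_mem _) 1))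
      have wb : ∀ b ∈ Wt (mx s) v, pb (φ : L →+* E) b w = 0 := fun b hb => by
        simpa [pb_zero] using hw _ (mem 0 (zero_mem _) b hb 0)
      refine h w (fun a ha => by simpa [pb_zero] using hw _ (mem a ha 0 (zero_mem _) 0)) o
        ((ok w).imp_right fun ⟨u, p⟩ => ?_)
      obtain rfl : v = u := (Api.sep _ L hL _ v u l.smp l.big (l.on v (hT v rfl)) ((ov_iff hL).2
        fun G hG => (mul_eq_zero.1 ((p.pb G).symm.trans (wb G hG))).resolve_left
          (Int.cast_ne_zero.2 p.e_pos.ne'))).symm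
      refine ⟨p, gz p y0 o fun q p1 p2 p3 => ?_⟩
      have : ∀ a : v.ring, ∃ G ∈ Wt (mx s) v, Sec G (a : L) := fun a => by
        obtain ⟨G, hG, e⟩ := hart_U hL l.big (wt_dsc (R₀ := v) (.refl l.smp)) (.zero l.smp)
          (.dv l.smp (a : L)) fun u b c => by
            obtain rfl := Api.sep _ L hL _ v u l.smp l.big (l.on v (hT v rfl)) ((ov_iff hL).2 c)
            exact Int.cast_nonneg (Pl.ord_nonneg_of_mem _ a.2)
        exact ⟨G, hG, .inr e⟩
      choose G hG e using this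
      let b := ∑ i ∈ q.support, G (q.coeff i)
      have hb : b ∈ Wt (mx s) v := sum_mem fun i _ => hG _
      have sc : Sec (pb (φ : L →+* E) b + (q.natDegree : ℝ) • Z) (q.eval₂ χ y) := by
        rw [eval₂_eq_sum, Polynomial.sum]
        refine Finset.sum_induction _ _ (fun _ _ => Sec.add) (.zero _) fun i hi => Sec.mul
          (ok.sec ((e _).mono (Finset.single_le_sum (fun j _ => wt_nn (hG (q.coeff j))) hi)))
          (((sec_pld y).pow i).mono ((smul_le_smul_of_nonneg_left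
            (le_add_of_nonneg_right (pld_nonneg _)) i.cast_nonneg).trans
            (smul_le_smul_of_nonneg_right (Nat.cast_le.2 (le_natDegree_of_mem_supp i hi)) z0)))
      have := hw _ ⟨(sc.resolve_left p3).trans_eq (add_comm _ _), 0, zero_mem _, b, hb,
        q.natDegree, q, p1, p2, p3, by rw [pb_zero, zero_add]⟩
      simpa [wb b hb, (zz w).2 o, dv_apply] using this
  refine ⟨q, p1, p2, p3, fun P r t o o' => ?_⟩
  have := kl P
  rw [dsc_sub] at this
  simpa [r a ha, t.pb, hb.1, (zz P).2 o, dv_apply, o'] using this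

end Nq

theorem gnadq : GNADQ := by
  intro n K _ _ hK E L σ τ _ _ _ _ _ _ _ _ z φ c x A H p D₁ C D D₂ v π q N y f su hx hH hC
    g0 hD hb hp q0 hq N0 π0 π1 y0 h1 h2
  by_cases f0 : f = 0
  · exact ⟨0, Fin.elim0, Fin.elim0, fun l => l.elim0, fun l => l.elim0,
      fun _ _ _ => ⟨fun _ => .inl (by simp), fun _ => .inl (by simp [f0])⟩⟩
  have hE : FF E (n + Fintype.card σ + 1) := Nat.add_right_comm _ _ _ ▸ ff_gen hK su.ind su.gen
  obtain ⟨j, -, ej⟩ := kq_cn hE (by simp; omega) (ind_sum su.ind hx)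
  have cA : A ∈ Car K := by
    obtain ⟨G, g, g1, -⟩ := g0
    obtain ⟨-, m, m0, e⟩ := hC G g
    simpa using sub_mem ((hH.smul m0).congr e).car g1.car
  have eΓ : ∀ P, dsc (n + Fintype.card σ + 1) (pb (algebraMap K E) A - D - dv j - dv f) P =
      la x z φ A D P + P.ord f - 1 := fun P => by
    have := congrFun ej P
    simp only [la, dsc, Pi.sub_apply, Pi.add_apply, Pi.one_apply, dv_apply] at this ⊢
    linarith
  obtain ⟨r, r1, r2, r3, k⟩ := Nq.exq hE (rf_ff su.rf) φ hH.car hC v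
    (sub_mem (sub_mem (sub_mem ((okL hE).car cA) hD.car) (dv_mem_Car j)) (dv_mem_Car f)) y0
    fun P a o t => by
      rw [eΓ]
      rcases t with t | t
      · have := h1 P a t
        have o := Int.cast_nonneg (R := ℝ) (Pl.ord_nonneg_of_mem P.toPlace (this.2 o.ge))
        linarith [this.1]
      · linarith [((h2 P a t.1).1 o t.2).resolve_left f0]
  set u := r.eval₂ ((φ : L →+* E).comp v.ring.subtype) y
  have th : ∀ P : Pl E, Trv (φ : L →+* E) P ∨ Lies (φ : L →+* E) P v →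
      (P.ord y < 0 → 0 < P.ord (u / y ^ (r.natDegree + 1))) ∧
      (0 < P.ord y → P.ord (u / y ^ (r.natDegree + 1)) < 0) ∧
      (P.ord y = 0 → P.ord (u / y ^ (r.natDegree + 1)) = P.ord u) := fun P t => by
    obtain ⟨a, -, b⟩ := Nq.three (χ := (φ : L →+* E).comp v.ring.subtype) (P := P)
      (fun a => t.elim (fun t => t _) fun t => (t _).1 a.2) y0 r1 r2
    rw [Pl.ord_div _ r3 (pow_ne_zero _ y0), Pl.ord_pow]
    refine ⟨fun o => ?_, fun o => ?_, fun o => by rw [o, mul_zero, sub_zero]⟩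
    · rw [b o]; push_cast; linarith
    · rw [a o]; push_cast; nlinarith [r.natDegree.cast_nonneg (α := ℤ)]
  obtain ⟨s, g, e, a1, a2, a3⟩ := gnad n K hK E L σ τ z φ c x A H p D₁ C D D₂ v π q N
    (u / y ^ (r.natDegree + 1)) f su hx hH hC g0 hD hb hp q0 hq N0 π0 π1
    (div_ne_zero r3 (pow_ne_zero _ y0)) (fun P a t => ⟨(h1 P a t).1, fun o => (h1 P a t).2
      (not_lt.1 fun o' => ((th P (.inl t)).1 o').not_ge o)⟩) fun P a t => ⟨fun o => by
        obtain ⟨b1, b2, b3⟩ := th P (.inr t)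
        have o' : P.ord y = 0 := le_antisymm (not_lt.1 fun o' => (b2 o').ne o)
          (not_lt.1 fun o' => (b1 o').ne' o)
        have := k P a t o' ((b3 o').symm.trans o)
        rw [eΓ] at this
        exact .inr (by linarith),
      fun o => (h2 P a t).2 (not_lt.1 fun o' => ((th P (.inr t)).1 o').not_ge o)⟩
  exact ⟨s, g, e, a1, a2, fun P a t => ⟨fun o => (a3 P a t).1 ((th P (.inr t)).1 o).le,
    fun o => (a3 P a t).2 ((th P (.inr t)).2.1 o).le⟩⟩

end Vale.Agent.P283B.Ln
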